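import Vale.Agent.P284.H206.Bog.Glob3
import Vale.Agent.P272.K.INT.Global

/-!
# P284 (helper206), K10: Kähler version of the vanishing theorem, first part

`W` is a Kähler metric on a compact complex manifold, `G ≥ 0` a smooth function such that
`i∂∂̄ log G = -Θ` off the zeros of `G`, with `Θ` bounded.
-/

open scoped Manifold ContDiff Topology ComplexOrder ComplexConjugate Matrix
open Filter Set MeasureTheory

noncomputable section

namespace Vale.Agent.P284.H206.K

open Vale.Agent.P272.K Vale.Agent.P272.K.INT Vale.Agent.P284.H206.Bog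

variable {n : ℕ} {X : Type*} [TopologicalSpace X] [ChartedSpace (Cm n) X]
  [IsManifold 𝓘(ℂ, Cm n) ω X] {W : Chart n X → Cm n → Matrix (Fin n) (Fin n) ℂ}

/-- the coefficient matrix of `W^{n-1}` -/
def AgK (W : Chart n X → Cm n → Matrix (Fin n) (Fin n) ℂ) (e : Chart n X) (z : Cm n) :
    Matrix (Fin n) (Fin n) ℂ :=
  (W e z).adjugateᵀ

omit [ChartedSpace (Cm n) X] [IsManifold 𝓘(ℂ, Cm n) ω X] in
theorem AgK_apply (e : Chart n X) (z : Cm n) (j k : Fin n) :
    AgK W e z j k = ((W e z).updateRow j (Pi.single k 1)).det := by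
  rw [AgK, Matrix.transpose_apply, Matrix.adjugate_apply]

omit [IsManifold 𝓘(ℂ, Cm n) ω X] in
theorem AgK_smooth (hw : IsKahler W) {e : Chart n X} {x : X} (hx : At e x) (j k : Fin n) :
    ContDiffAt ℝ ∞ (fun z => AgK W e z j k) (e x) := by
  simp only [AgK_apply]
  refine INT.contDiffAt_det fun i l => ?_
  by_cases h : i = j
  · subst h
    simp only [Matrix.updateRow_self]
    exact contDiffAt_const
  · simp only [Matrix.updateRow_ne h]
    exact hw.smooth e x hx i l

omit [IsManifold 𝓘(ℂ, Cm n) ω X] in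
theorem AgK_TF (hw : IsKahler W) : TF (∅ : Set X) (AgK W) where
  smooth e x hx _ j k := AgK_smooth hw hx j k
  change e e' x hx hx' _ := by
    set J := jacM e e' x with hJ
    have h2 : W e (e x) = Jᵀ * W e' (e' x) * J.map (starRingEnd ℂ) := hw.change e e' x hx hx'
    have h3 : AgK W e (e x) = J.adjugate * AgK W e' (e' x) * (Jᴴ).adjugate := by
      rw [AgK, AgK, h2, Matrix.adjugate_mul_distrib, Matrix.adjugate_mul_distrib]
      have e1 : ((J.map (starRingEnd ℂ)).adjugate)ᵀ = (Jᴴ).adjugate := by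
        rw [Matrix.adjugate_transpose]; rfl
      have e2 : ((Jᵀ).adjugate)ᵀ = J.adjugate := by
        rw [Matrix.adjugate_transpose, Matrix.transpose_transpose]
      rw [Matrix.transpose_mul, Matrix.transpose_mul, e1, e2]
    rw [h3]
    have e3 : J * (J.adjugate * AgK W e' (e' x) * (Jᴴ).adjugate) * Jᴴ =
        (J * J.adjugate) * AgK W e' (e' x) * ((Jᴴ).adjugate * Jᴴ) := by
      simp only [Matrix.mul_assoc]
    rw [e3, Matrix.mul_adjugate, Matrix.adjugate_mul, Matrix.det_conjTranspose]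
    simp only [Matrix.smul_mul, Matrix.mul_smul, Matrix.one_mul, Matrix.mul_one, smul_smul]
    congr 1
    rw [← Complex.normSq_eq_norm_sq, ← Complex.mul_conj, mul_comm]
    rfl

theorem ev_at {e : Chart n X} {x : X} (hx : At e x) :
    ∀ᶠ z in 𝓝 (e x), z ∈ e.target ∧ At e (e.symm z) := by
  filter_upwards [hx.nhds_at hx] with z hz
  exact ⟨hz.1, hz.2.1⟩

theorem DD_AgK (hw : IsKahler W) {e : Chart n X} {x : X} (hx : At e x) :
    DD (AgK W e) (e x) = 0 := by
  have hev : ∀ᶠ z in 𝓝 (e x), ∀ j k, ContDiffAt ℝ ∞ (fun y => W e y j k) z := by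
    filter_upwards [hx.nhds_at hx] with z hz j k
    have := hw.smooth e _ hz.2.1 j k
    rwa [e.right_inv hz.1] at this
  have hcl : ∀ᶠ z in 𝓝 (e x), ∀ i k l, dz i (fun y => W e y k l) z = dz k (fun y => W e y i l) z := by
    filter_upwards [hx.nhds_at hx] with z hz i k l
    have := hw.closed e _ hz.2.1 k l i
    rwa [e.right_inv hz.1] at this
  have hA : ∀ᶠ z in 𝓝 (e x), ∀ j k, ContDiffAt ℝ ∞ (fun z => AgK W e z j k) z := by
    filter_upwards [hx.nhds_at hx] with z hz j k
    have := AgK_smooth hw hz.2.1 j k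
    rwa [e.right_inv hz.1] at this
  have hdiv : ∀ k, (fun z => ∑ j, dz j (fun y => AgK W e y j k) z) =ᶠ[𝓝 (e x)] fun _ => 0 := by
    intro k
    filter_upwards [hev, hcl] with z hz hc
    have h1 := INT.piola (M := fun y => W e y) (a := fun _ => Pi.single k 1) (z := z)
      (fun i j => (hz i j).differentiableAt (by simp))
      (fun l => differentiableAt_const _) (fun i k l => hc i k l)
    have h2 : ∀ j, dz j (fun y => AgK W e y j k) z =
        dz j (fun y => ((W e y).updateRow j (Pi.single k 1)).det) z := by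
      intro j
      congr 1
      funext y
      rw [AgK_apply]
    simp only [h2]
    rw [h1]
    refine Finset.sum_eq_zero fun r _ => ?_
    refine Matrix.det_eq_zero_of_row_eq_zero r fun l => ?_
    rw [Matrix.updateRow_self]
    exact INT.dz_const _
  have h3 : DD (AgK W e) (e x) = ∑ k, dzb k (fun z => ∑ j, dz j (fun y => AgK W e y j k) z) (e x) := by
    unfold DD
    rw [Finset.sum_comm]
    refine Finset.sum_congr rfl fun k _ => ?_
    rw [INT.dzb_sum Finset.univ fun j _ =>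
      (INT.smooth_dz (hA.self_of_nhds j k)).differentiableAt (by simp)]
    refine Finset.sum_congr rfl fun j _ => ?_
    exact INT.dz_dzb_comm ((hA.self_of_nhds j k).of_le two_le_inf)
  rw [h3]
  refine Finset.sum_eq_zero fun k _ => ?_
  rw [INT.dzb_congr (hdiv k), INT.dzb_const]

/-- the integral of `W^{n-1} ∧ i∂∂̄χ` vanishes -/
theorem intX_AgK [T2Space X] [CompactSpace X] (hw : IsKahler W) {χ : X → ℝ}
    (hχ : SmoothFn (n := n) χ) : intX (BB (AgK W) χ) = 0 := by
  rw [BB_total (AgK_TF hw) hχ (by simp)]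
  refine Finset.sum_eq_zero fun i _ => ?_
  rw [setIntegral_congr_fun (g := fun _ => (0 : ℝ)) ((part n X).e i).open_target.measurableSet]
  · simp
  · intro z hz
    have h := DD_AgK hw (e := (part n X).e i) (x := ((part n X).e i).symm z)
      ⟨(part n X).mem i, ((part n X).e i).map_target hz⟩
    rw [((part n X).e i).right_inv hz] at h
    simp only [h, Complex.zero_re, zero_mul]

/-- the volume density of `W` -/
def dgK (W : Chart n X → Cm n → Matrix (Fin n) (Fin n) ℂ) (e : Chart n X) (z : Cm n) : ℝ :=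
  (W e z).det.re

theorem dgK_density (hw : IsKahler W) : IsDensity (dgK W) :=
  (IsKahler.isClosedForm hw).isDensity

omit [IsManifold 𝓘(ℂ, Cm n) ω X] in
theorem dgK_pos (hw : IsKahler W) {e : Chart n X} {x : X} (hx : At e x) : 0 < dgK W e (e x) :=
  (Complex.pos_iff.1 (hw.posDef e x hx).det_pos).1

/-- the data of a cut-off -/
structure GDat (W : Chart n X → Cm n → Matrix (Fin n) (Fin n) ℂ) (G : X → ℝ)
    (Θ : Chart n X → Cm n → Matrix (Fin n) (Fin n) ℂ) (M : ℝ) : Prop where
  sm : SmoothFn (n := n) G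
  nn : ∀ x, 0 ≤ G x
  hess : ∀ e x, At e x → G x ≠ 0 → cHess (fun y => Real.log (G (e.symm y))) (e x) = -Θ e (e x)
  M0 : 0 ≤ M
  bd : ∀ e x, At e x → G x ≠ 0 → |(pr (AgK W e (e x)) (Θ e (e x))).re| ≤ M * dgK W e (e x)

variable {G : X → ℝ} {Θ : Chart n X → Cm n → Matrix (Fin n) (Fin n) ℂ} {M : ℝ}

/-- `∂ log G` -/
def gd (G : X → ℝ) (e : Chart n X) (z : Cm n) (j : Fin n) : ℂ :=
  dz j (fun y => ((Real.log (G (e.symm y)) : ℝ) : ℂ)) z

omit [IsManifold 𝓘(ℂ, Cm n) ω X] in
theorem logG_contDiffAt (hG : GDat W G Θ M) {e : Chart n X} {x : X}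
    (hx : At e x) (h0 : G x ≠ 0) :
    ContDiffAt ℝ ∞ (fun y => Real.log (G (e.symm y))) (e x) := by
  refine (hG.sm e x hx).log ?_
  rwa [e.left_inv hx.2]

omit [IsManifold 𝓘(ℂ, Cm n) ω X] in
/-- the Hessian of `T(log G)` -/
theorem pr_comp (hG : GDat W G Θ M) {e : Chart n X} {x : X}
    (hx : At e x) (h0 : G x ≠ 0) {F : X → ℝ} {T T₁ : ℝ → ℝ} {T₂ : ℝ}
    (hF : ∀ᶠ y in 𝓝 x, F y = T (Real.log (G y)))
    (h1 : ∀ᶠ s in 𝓝 (Real.log (G x)), HasDerivAt T (T₁ s) s)
    (h2 : HasDerivAt T₁ T₂ (Real.log (G x))) (A : Matrix (Fin n) (Fin n) ℂ) :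
    pr A (cHess (fun y => F (e.symm y)) (e x)) =
      -((T₁ (Real.log (G x)) : ℝ) : ℂ) * pr A (Θ e (e x)) +
      (T₂ : ℂ) * pr A (Matrix.vecMulVec (gd G e (e x)) (star (gd G e (e x)))) := by
  have hs := logG_contDiffAt hG hx h0
  have e1 : (fun y => F (e.symm y)) =ᶠ[𝓝 (e x)] fun y => T (Real.log (G (e.symm y))) :=
    ev_symm hx hF
  have hxx : Real.log (G (e.symm (e x))) = Real.log (G x) := by
    rw [e.left_inv hx.2]
  have h3 : ∀ j k, cHess (fun y => F (e.symm y)) (e x) j k =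
      (T₁ (Real.log (G x)) : ℂ) * (-Θ e (e x) j k) +
      (T₂ : ℂ) * (gd G e (e x) j * star (gd G e (e x) k)) := by
    intro j k
    rw [C2.cHess_congr e1]
    have h4 := C2.cHess_comp (ψ := T) (ψ₁ := T₁) (ψ₂ := T₂)
      (u := fun y => Real.log (G (e.symm y))) (z := e x)
      (by rw [hxx]; exact h1) (by rw [hxx]; exact h2) (hs.of_le two_le_inf) j k
    rw [h4, hG.hess e x hx h0, hxx]
    have h5 : dzb k (fun y => ((Real.log (G (e.symm y)) : ℝ) : ℂ)) (e x) =
        star (gd G e (e x) k) := by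
      rw [C2.dzb_real k (hs.differentiableAt (by simp))]
      rfl
    rw [h5, Matrix.neg_apply]
    rfl
  simp only [pr, h3, Matrix.vecMulVec_apply, Pi.star_apply, Finset.mul_sum, ← Finset.sum_add_distrib]
  refine Finset.sum_congr rfl fun j _ => Finset.sum_congr rfl fun k _ => ?_
  ring

/-- the gradient energy of `log G` -/
def RR (G : X → ℝ) (W : Chart n X → Cm n → Matrix (Fin n) (Fin n) ℂ) (e : Chart n X) (z : Cm n) : ℝ :=
  (pr (AgK W e z) (Matrix.vecMulVec (gd G e z) (star (gd G e z)))).re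

omit [IsManifold 𝓘(ℂ, Cm n) ω X] in
theorem RR_nonneg (hw : IsKahler W) {e : Chart n X} {x : X} (hx : At e x) : 0 ≤ RR G W e (e x) :=
  rank_nonneg (hw.posDef e x hx) _

/-! ### the functions `log (G + δ)` -/

/-- `log (G + δ)` -/
def Fd (G : X → ℝ) (δ : ℝ) (x : X) : ℝ := Real.log (G x + δ)

omit [IsManifold 𝓘(ℂ, Cm n) ω X] in
theorem Fd_smooth (hG : GDat W G Θ M) {δ : ℝ} (hδ : 0 < δ) : SmoothFn (n := n) (Fd G δ) := by
  intro e x hx
  refine ContDiffAt.log ((hG.sm e x hx).add contDiffAt_const) ?_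
  have := hG.nn (e.symm (e x))
  positivity

theorem GDat.cont (hG : GDat W G Θ M) : Continuous G := SmoothFn.continuous hG.sm

theorem Fd_eq (hG : GDat W G Θ M) {δ : ℝ} {x : X} (h0 : G x ≠ 0) :
    ∀ᶠ y in 𝓝 x, Fd G δ y = ps δ (Real.log (G y)) := by
  filter_upwards [hG.cont.continuousAt.eventually_ne h0] with y hy
  have : 0 < G y := lt_of_le_of_ne (hG.nn y) (Ne.symm hy)
  rw [Fd, ps, Real.exp_log this]

theorem Fd_formula (hG : GDat W G Θ M) {δ : ℝ} (hδ : 0 < δ)
    {e : Chart n X} {x : X} (hx : At e x) (h0 : G x ≠ 0) :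
    BB (AgK W) (Fd G δ) e (e x) + M * dgK W e (e x) =
      (M * dgK W e (e x) - ps1 δ (Real.log (G x)) * (pr (AgK W e (e x)) (Θ e (e x))).re) +
        ps2 δ (Real.log (G x)) * RR G W e (e x) := by
  have h := pr_comp hG hx h0 (Fd_eq (δ := δ) hG h0)
    (Eventually.of_forall fun s => ps_deriv hδ s) (ps_deriv2 hδ _) (AgK W e (e x))
  have h3 := congrArg Complex.re h
  rw [Complex.add_re, Complex.re_ofReal_mul, ← Complex.ofReal_neg, Complex.re_ofReal_mul] at h3
  unfold BB RR
  rw [h3]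
  ring

theorem Fd_ge (hG : GDat W G Θ M) {δ : ℝ} (hδ : 0 < δ) {e : Chart n X} {x : X} (hx : At e x)
    (h0 : G x ≠ 0) :
    ps2 δ (Real.log (G x)) * RR G W e (e x) ≤
      BB (AgK W) (Fd G δ) e (e x) + M * dgK W e (e x) := by
  rw [Fd_formula hG hδ hx h0]
  have h1 := ps1_le hδ (Real.log (G x))
  have h2 := ps1_nonneg hδ (Real.log (G x))
  have h3 := hG.bd e x hx h0
  have h4 : ps1 δ (Real.log (G x)) * (pr (AgK W e (e x)) (Θ e (e x))).re ≤ M * dgK W e (e x) := by
    calc ps1 δ (Real.log (G x)) * (pr (AgK W e (e x)) (Θ e (e x))).re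
        ≤ ps1 δ (Real.log (G x)) * |(pr (AgK W e (e x)) (Θ e (e x))).re| :=
          mul_le_mul_of_nonneg_left (le_abs_self _) h2
      _ ≤ 1 * |(pr (AgK W e (e x)) (Θ e (e x))).re| :=
          mul_le_mul_of_nonneg_right h1 (abs_nonneg _)
      _ ≤ _ := by rw [one_mul]; exact h3
  linarith

theorem Fd_nonneg (hw : IsKahler W) (hG : GDat W G Θ M) {δ : ℝ} (hδ : 0 < δ)
    {e : Chart n X} {x : X} (hx : At e x) :
    0 ≤ BB (AgK W) (Fd G δ) e (e x) + M * dgK W e (e x) := by
  by_cases hd : ∃ᶠ z in 𝓝 (e x), G (e.symm z) ≠ 0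
  · have hD : IsDensity (fun e z => BB (AgK W) (Fd G δ) e z + M * dgK W e z) :=
      (BB_density (AgK_TF hw) (Fd_smooth hG hδ) (by simp)).add ((dgK_density hw).const_mul M)
    have hc := hD.cont e x hx
    by_contra hcon
    push Not at hcon
    have h1 := hc.eventually_lt continuousAt_const hcon
    obtain ⟨z, hz1, hz2, hz3⟩ := (hd.and_eventually (h1.and (hx.nhds_at hx))).exists
    have h2 := Fd_ge hG hδ hz3.2.1 hz1
    have h3 := RR_nonneg (G := G) hw hz3.2.1
    have h4 := ps2_nonneg hδ (Real.log (G (e.symm z)))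
    rw [e.right_inv hz3.1] at h2 h3
    have h5 := mul_nonneg h4 h3
    linarith
  · have hd' : ∀ᶠ z in 𝓝 (e x), G (e.symm z) = 0 := by simpa using hd
    have h1 : (fun y => Fd G δ (e.symm y)) =ᶠ[𝓝 (e x)] fun _ => Real.log δ := by
      filter_upwards [hd'] with z hz
      rw [Fd, hz, zero_add]
    have h2 : BB (AgK W) (Fd G δ) e (e x) = 0 := by
      unfold BB
      rw [C2.cHess_congr h1, C2.cHess_const]
      simp [pr]
    rw [h2, zero_add]
    exact mul_nonneg hG.M0 (dgK_pos hw hx).le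

/-! ### the cut-off -/

/-- the cut-off function -/
def ch (G : X → ℝ) (j : ℕ) (x : X) : ℝ := cut j (G x)

omit [IsManifold 𝓘(ℂ, Cm n) ω X] in
theorem ch_smooth (hG : GDat W G Θ M) {j : ℕ} (hj : 0 < j) : SmoothFn (n := n) (ch G j) := by
  intro e x hx
  exact (cut_contDiff hj).contDiffAt.comp (e x) (hG.sm e x hx)

theorem ch_near_zero (hG : GDat W G Θ M) {j : ℕ} (hj : 0 < j) {x : X}
    (h0 : G x = 0) : x ∉ tsupport (ch G j) := by
  rw [notMem_tsupport_iff_eventuallyEq]
  have h1 : ∀ᶠ y in 𝓝 x, G y < Real.exp (-(2 * j)) := by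
    refine hG.cont.continuousAt.eventually_lt continuousAt_const ?_
    rw [h0]; exact Real.exp_pos _
  filter_upwards [h1] with y hy
  exact cut_zero hj hy

theorem ch_disj (hG : GDat W G Θ M) {j : ℕ} (hj : 0 < j) :
    tsupport (ch G j) ∩ {x | G x = 0} = ∅ := by
  ext x
  simp only [mem_inter_iff, mem_empty_iff_false, iff_false, not_and]
  intro h1 h2
  exact ch_near_zero hG hj h2 h1

theorem ch_eq (hG : GDat W G Θ M) {j : ℕ} {x : X} (h0 : G x ≠ 0) :
    ∀ᶠ y in 𝓝 x, ch G j y = TT j (Real.log (G y)) := by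
  filter_upwards [hG.cont.continuousAt.eventually_ne h0] with y hy
  exact cut_eq (lt_of_le_of_ne (hG.nn y) (Ne.symm hy))

variable {A : Chart n X → Cm n → Matrix (Fin n) (Fin n) ℂ} {C K : ℝ}

/-- the majorant -/
def Maj (G : X → ℝ) (W : Chart n X → Cm n → Matrix (Fin n) (Fin n) ℂ) (M C K : ℝ) (j : ℕ)
    (e : Chart n X) (z : Cm n) : ℝ :=
  (K * C / j) * dgK W e z + (16 * K * C / j ^ 2) *
    ∑ i ∈ Finset.range (j + 1), (BB (AgK W) (Fd G (Real.exp (-((j + i : ℕ) : ℝ)))) e z +
      M * dgK W e z)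

theorem Maj_density (hw : IsKahler W) (hG : GDat W G Θ M) (j : ℕ) :
    IsDensity (Maj G W M C K j) := by
  refine ((dgK_density hw).const_mul _).add (IsDensity.const_mul (IsDensity.sum _ fun i _ => ?_) _)
  exact (BB_density (AgK_TF hw) (Fd_smooth hG (Real.exp_pos _)) (by simp)).add
    ((dgK_density hw).const_mul M)

theorem BB_le_Maj (hw : IsKahler W) (hG : GDat W G Θ M) (hC : 0 ≤ C) (hK0 : 0 ≤ K)
    (hK : ∀ t, |deriv sT t| ≤ K ∧ |deriv (deriv sT) t| ≤ K)
    (hb1 : ∀ e x, At e x → G x ≠ 0 → ∀ ξ : Fin n → ℂ,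
      |(pr (A e (e x)) (Matrix.vecMulVec ξ (star ξ))).re| ≤
        C * (pr (AgK W e (e x)) (Matrix.vecMulVec ξ (star ξ))).re)
    (hb2 : ∀ e x, At e x → G x ≠ 0 → |(pr (A e (e x)) (Θ e (e x))).re| ≤
      C * dgK W e (e x))
    {j : ℕ} (hj : 0 < j) {e : Chart n X} {x : X} (hx : At e x) :
    BB A (ch G j) e (e x) ≤ Maj G W M C K j e (e x) := by
  have hj' : (0 : ℝ) < j := by exact_mod_cast hj
  have hdg := (dgK_pos hw hx).le
  have hsum : ∀ i ∈ Finset.range (j + 1), 0 ≤
      BB (AgK W) (Fd G (Real.exp (-((j + i : ℕ) : ℝ)))) e (e x) + M * dgK W e (e x) :=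
    fun i _ => Fd_nonneg hw hG (Real.exp_pos _) hx
  have hMaj0 : 0 ≤ (16 * K * C / j ^ 2) *
    ∑ i ∈ Finset.range (j + 1), (BB (AgK W) (Fd G (Real.exp (-((j + i : ℕ) : ℝ)))) e (e x) +
      M * dgK W e (e x)) := mul_nonneg (by positivity) (Finset.sum_nonneg hsum)
  by_cases h0 : G x = 0
  · have h1 : BB A (ch G j) e (e x) = 0 := by
      unfold BB
      rw [(cHess_off hx (ch_near_zero hG hj h0)).self_of_nhds]
      simp [pr]
    rw [h1, Maj]
    have : 0 ≤ (K * C / j) * dgK W e (e x) := by positivity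
    linarith
  · have h := pr_comp hG hx h0 (ch_eq (j := j) hG h0)
      (Eventually.of_forall fun s => TT_deriv j s) (TT_deriv2 j _) (A e (e x))
    have h' := congrArg Complex.re h
    rw [Complex.add_re, Complex.re_ofReal_mul, ← Complex.ofReal_neg, Complex.re_ofReal_mul] at h'
    have hge : ∀ i : ℕ, ps2 (Real.exp (-((j + i : ℕ) : ℝ))) (Real.log (G x)) *
        RR G W e (e x) ≤ BB (AgK W) (Fd G (Real.exp (-((j + i : ℕ) : ℝ)))) e (e x) +
          M * dgK W e (e x) := fun i => Fd_ge hG (Real.exp_pos _) hx h0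
    generalize Real.log (G x) = u at h' hge
    set ξ := gd G e (e x) with hξ
    have ha' : |(pr (A e (e x)) (Θ e (e x))).re| ≤ C * dgK W e (e x) := hb2 e x hx h0
    have hb' : |(pr (A e (e x)) (Matrix.vecMulVec ξ (star ξ))).re| ≤ C * RR G W e (e x) :=
      hb1 e x hx h0 ξ
    have hRR := RR_nonneg (G := G) hw hx
    obtain ⟨hK1, hK2⟩ := hK (u / j + 2)
    by_cases hin : u / j + 2 ∈ Icc (0 : ℝ) 1
    · -- the gradient term
      have hu1 : (j : ℝ) ≤ -u := by
        have h3 := hin.2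
        have h4 : u / j ≤ -1 := by linarith
        rw [div_le_iff₀ hj'] at h4; linarith
      have hu2 : -u ≤ 2 * j := by
        have h3 := hin.1
        have h4 : -2 ≤ u / j := by linarith
        rw [le_div_iff₀ hj'] at h4; linarith
      obtain ⟨m, hm1, hm2, hmj, hm2j⟩ : ∃ m : ℕ, -(m : ℝ) ≤ u ∧ u ≤ -(m : ℝ) + 1 ∧ j ≤ m ∧
          m ≤ 2 * j := by
        refine ⟨⌈-u⌉₊, ?_, ?_, ?_, ?_⟩
        · have := Nat.le_ceil (-u); linarith
        · have := Nat.ceil_lt_add_one (show 0 ≤ -u by linarith); linarith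
        · have h1 := Nat.le_ceil (-u)
          have : (j : ℝ) ≤ ⌈-u⌉₊ := by linarith
          exact_mod_cast this
        · rw [Nat.ceil_le]; push_cast; exact hu2
      have hRRle : RR G W e (e x) ≤ 16 * ∑ i ∈ Finset.range (j + 1),
          (BB (AgK W) (Fd G (Real.exp (-((j + i : ℕ) : ℝ)))) e (e x) +
            M * dgK W e (e x)) := by
        have h5 := Finset.single_le_sum hsum (show m - j ∈ Finset.range (j + 1) by
          rw [Finset.mem_range]; omega)
        have h6 := hge (m - j)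
        have h7 : j + (m - j) = m := by omega
        rw [h7] at h5 h6
        have h8 := ps2_lower hm1 hm2
        have h9 := mul_le_mul_of_nonneg_right h8 hRR
        linarith
      have t1 : -(deriv sT (u / j + 2) * (1 / j)) * (pr (A e (e x)) (Θ e (e x))).re ≤
          (K * C / j) * dgK W e (e x) := by
        refine (le_abs_self _).trans ?_
        rw [abs_mul, abs_neg, abs_mul, abs_of_pos (show (0 : ℝ) < 1 / j by positivity)]
        calc (|deriv sT (u / j + 2)| * (1 / j)) *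
              |(pr (A e (e x)) (Θ e (e x))).re|
            ≤ (K * (1 / j)) * (C * dgK W e (e x)) := by
              gcongr
          _ = _ := by ring
      have t2 : deriv (deriv sT) (u / j + 2) * (1 / j) * (1 / j) *
          (pr (A e (e x)) (Matrix.vecMulVec ξ (star ξ))).re ≤
          (K * C / j ^ 2) * RR G W e (e x) := by
        refine (le_abs_self _).trans ?_
        rw [abs_mul, abs_mul, abs_mul, abs_of_pos (show (0 : ℝ) < 1 / j by positivity)]
        calc |deriv (deriv sT) (u / j + 2)| * (1 / j) * (1 / j) *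
              |(pr (A e (e x)) (Matrix.vecMulVec ξ (star ξ))).re|
            ≤ K * (1 / j) * (1 / j) * (C * RR G W e (e x)) := by
              gcongr
          _ = _ := by ring
      have t3 : (K * C / j ^ 2) * RR G W e (e x) ≤ (16 * K * C / j ^ 2) *
          ∑ i ∈ Finset.range (j + 1),
          (BB (AgK W) (Fd G (Real.exp (-((j + i : ℕ) : ℝ)))) e (e x) +
            M * dgK W e (e x)) := by
        calc _ ≤ (K * C / j ^ 2) * (16 * ∑ i ∈ Finset.range (j + 1),
          (BB (AgK W) (Fd G (Real.exp (-((j + i : ℕ) : ℝ)))) e (e x) +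
            M * dgK W e (e x))) := mul_le_mul_of_nonneg_left hRRle (by positivity)
          _ = _ := by ring
      have h10 : BB A (ch G j) e (e x) = _ := h'
      rw [h10, Maj]
      linarith
    · obtain ⟨h5, h6⟩ := deriv_off' hin
      rw [h5, h6] at h'
      have h7 : BB A (ch G j) e (e x) = 0 := by
        unfold BB
        rw [h']
        simp
      rw [h7, Maj]
      have : 0 ≤ (K * C / j) * dgK W e (e x) := by positivity
      linarith

end Vale.Agent.P284.H206.K
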