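import Vale.Agent.P284.H206.K.B1

/-!
# P284 (helper206), K10: Kähler version of the vanishing theorem
-/

open scoped Manifold ContDiff Topology ComplexOrder ComplexConjugate Matrix
open Filter Set MeasureTheory

noncomputable section

namespace Vale.Agent.P284.H206.K

open Vale.Agent.P272.K Vale.Agent.P272.K.INT Vale.Agent.P284.H206.Bog

variable {n : ℕ} {X : Type*} [TopologicalSpace X] [ChartedSpace (Cm n) X]
  [IsManifold 𝓘(ℂ, Cm n) ω X] {W : Chart n X → Cm n → Matrix (Fin n) (Fin n) ℂ}
  {G : X → ℝ} {Θ : Chart n X → Cm n → Matrix (Fin n) (Fin n) ℂ} {M : ℝ}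
  {A : Chart n X → Cm n → Matrix (Fin n) (Fin n) ℂ} {C K : ℝ}
  [T2Space X] [CompactSpace X]

theorem intX_Maj (hw : IsKahler W) (hG : GDat W G Θ M) (j : ℕ) :
    intX (Maj G W M C K j) = (K * C / j) * intX (dgK W) +
      (16 * K * C / j ^ 2) * ((j + 1) * (M * intX (dgK W))) := by
  have h0 : ∀ i : ℕ, IsDensity fun e z => BB (AgK W) (Fd G (Real.exp (-((j + i : ℕ) : ℝ)))) e z +
      M * dgK W e z := fun i =>
    (BB_density (AgK_TF hw) (Fd_smooth hG (Real.exp_pos _)) (by simp)).add
    ((dgK_density hw).const_mul M)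
  have h1 : ∀ i : ℕ, intX (fun e z => BB (AgK W) (Fd G (Real.exp (-((j + i : ℕ) : ℝ)))) e z +
      M * dgK W e z) = M * intX (dgK W) := by
    intro i
    rw [intX_add (BB_density (AgK_TF hw) (Fd_smooth hG (Real.exp_pos _)) (by simp))
      ((dgK_density hw).const_mul M), intX_const_mul, intX_AgK hw (Fd_smooth hG (Real.exp_pos _)),
      zero_add]
  unfold Maj
  rw [intX_add ((dgK_density hw).const_mul _) (IsDensity.const_mul (IsDensity.sum _ fun i _ => h0 i) _),
    intX_const_mul, intX_const_mul, intX_sum _ fun i _ => h0 i]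
  rw [Finset.sum_congr rfl fun i _ => h1 i, Finset.sum_const, Finset.card_range, nsmul_eq_mul,
    Nat.cast_add, Nat.cast_one]

/-- **The vanishing theorem.**  A bounded form `A` of type `(n-1,n-1)` on a compact Kähler manifold,
smooth off the zeros of `G`, with `i∂∂̄A ≥ 0` there, has `i∂∂̄A = 0` there. -/
theorem DD_zero (hw : IsKahler W) (hG : GDat W G Θ M) (hC : 0 ≤ C)
    (hA : TF {x | G x = 0} A)
    (hb1 : ∀ e x, At e x → G x ≠ 0 → ∀ ξ : Fin n → ℂ,
      |(pr (A e (e x)) (Matrix.vecMulVec ξ (star ξ))).re| ≤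
        C * (pr (AgK W e (e x)) (Matrix.vecMulVec ξ (star ξ))).re)
    (hb2 : ∀ e x, At e x → G x ≠ 0 → |(pr (A e (e x)) (Θ e (e x))).re| ≤
      C * dgK W e (e x))
    (hDD : ∀ e x, At e x → G x ≠ 0 → 0 ≤ (DD (A e) (e x)).re)
    {x : X} (hx0 : G x ≠ 0) {i : Fin (part n X).N} (hi : 0 < (part n X).ρ i x) :
    (DD (A ((part n X).e i)) ((part n X).e i x)).re = 0 := by
  obtain ⟨K, hK0, hK⟩ := exists_bound
  set e := (part n X).e i with he
  have hxs : x ∈ e.source := (part n X).supp i (subset_tsupport _ (by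
    simp only [Function.mem_support]; exact hi.ne'))
  have hx : At e x := ⟨(part n X).mem i, hxs⟩
  by_contra hne
  have hp0 : 0 < (DD (A e) (e x)).re := lt_of_le_of_ne (hDD e x hx hx0) (Ne.symm hne)
  have hG0 : 0 < G x := lt_of_le_of_ne (hG.nn x) (Ne.symm hx0)
  set F : Cm n → ℝ := fun z => (DD (A e) z).re * (part n X).ρ i (e.symm z) with hF
  have hFc : ContinuousAt F (e x) := by
    refine ContinuousAt.mul ?_ (((part n X).smooth i e x hx).continuousAt)
    refine Complex.continuous_re.continuousAt.comp ?_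
    unfold DD
    exact tendsto_finsetSum _ fun j _ => tendsto_finsetSum _ fun k _ =>
      (INT.smooth_dz (INT.smooth_dzb (hA.smooth e x hx hx0 j k))).continuousAt
  have hF0 : 0 < F (e x) := by
    rw [hF]
    simp only
    rw [e.left_inv hxs]
    exact mul_pos hp0 hi
  have hGc : ContinuousAt (fun z => G (e.symm z)) (e x) := (hG.sm e x hx).continuousAt
  have hGv : G x / 2 < G (e.symm (e x)) := by rw [e.left_inv hxs]; linarith
  have hev : ∀ᶠ z in 𝓝 (e x), z ∈ e.target ∧ F (e x) / 2 < F z ∧
      G x / 2 < G (e.symm z) := by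
    filter_upwards [e.open_target.mem_nhds (e.map_source hxs),
      continuousAt_const.eventually_lt hFc (show F (e x) / 2 < F (e x) by linarith),
      continuousAt_const.eventually_lt hGc hGv] with z h1 h2 h3
    exact ⟨h1, h2, h3⟩
  obtain ⟨r, hr, hball⟩ := Metric.eventually_nhds_iff_ball.1 hev
  have hvol : 0 < (volume : Measure (Cm n)).real (Metric.ball (e x) r) :=
    ENNReal.toReal_pos (Metric.measure_ball_pos volume _ hr).ne' measure_ball_lt_top.ne
  set c : ℝ := F (e x) / 2 * (volume : Measure (Cm n)).real (Metric.ball (e x) r) with hc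
  have hc0 : 0 < c := by positivity
  have key : ∀ j : ℕ, 0 < j → Real.exp (-(j : ℝ)) ≤ G x / 2 →
      c ≤ intX (Maj G W M C K j) := by
    intro j hj hjG
    have hch := ch_smooth (n := n) hG hj
    have hdis := ch_disj hG hj
    have k1 : intX (BB A (ch G j)) ≤ intX (Maj G W M C K j) :=
      intX_mono (BB_density hA hch hdis) (Maj_density hw hG j) fun e x hx =>
        BB_le_Maj hw hG hC hK0 hK hb1 hb2 hj hx
    refine le_trans ?_ k1
    rw [BB_total hA hch hdis]
    -- the terms are nonnegative
    have hnn : ∀ i', ∀ z ∈ ((part n X).e i').target, 0 ≤ (DD (A ((part n X).e i')) z).re *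
        ((part n X).ρ i' (((part n X).e i').symm z) * ch G j (((part n X).e i').symm z)) := by
      intro i' z hz
      have hz' : At ((part n X).e i') (((part n X).e i').symm z) := ⟨(part n X).mem i', ((part n X).e i').map_target hz⟩
      by_cases h0 : G (((part n X).e i').symm z) = 0
      · have : ch G j (((part n X).e i').symm z) = 0 :=
          image_eq_zero_of_notMem_tsupport (ch_near_zero hG hj h0)
        rw [this, mul_zero, mul_zero]
      · have h1 := hDD _ _ hz' h0
        rw [((part n X).e i').right_inv hz] at h1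
        exact mul_nonneg h1 (mul_nonneg ((part n X).nonneg i' _) (cut_nonneg _ _))
    have hsum : ∫ z in ((part n X).e i).target, (DD (A ((part n X).e i)) z).re *
        ((part n X).ρ i (((part n X).e i).symm z) * ch G j (((part n X).e i).symm z)) ≤
        ∑ i', ∫ z in ((part n X).e i').target, (DD (A ((part n X).e i')) z).re *
        ((part n X).ρ i' (((part n X).e i').symm z) * ch G j (((part n X).e i').symm z)) :=
      Finset.single_le_sum (f := fun i' => ∫ z in ((part n X).e i').target, (DD (A ((part n X).e i')) z).re *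
        ((part n X).ρ i' (((part n X).e i').symm z) * ch G j (((part n X).e i').symm z)))
        (fun i' _ => setIntegral_nonneg ((part n X).e i').open_target.measurableSet (hnn i'))
        (Finset.mem_univ i)
    refine le_trans ?_ hsum
    have hint : IntegrableOn (fun z => (DD (A e) z).re *
        ((fun y => (part n X).ρ i y * ch G j y) (e.symm z))) e.target :=
      DD_integrable hA (χ := fun y => (part n X).ρ i y * ch G j y) (SmoothFn.mul ((part n X).smooth i) hch)
        (inter_empty hdis) hx.1 (tsupport_mul_subset_left'.trans ((part n X).supp i))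
    have hsub : Metric.ball (e x) r ⊆ e.target := fun z hz => (hball z hz).1
    have h2 : ∫ z in Metric.ball (e x) r, (DD (A e) z).re * ((part n X).ρ i (e.symm z) * ch G j (e.symm z))
        ≤ ∫ z in e.target, (DD (A e) z).re * ((part n X).ρ i (e.symm z) * ch G j (e.symm z)) := by
      refine setIntegral_mono_set hint ?_ (Eventually.of_forall hsub)
      filter_upwards [self_mem_ae_restrict e.open_target.measurableSet] with z hz
      exact hnn i z hz
    refine le_trans ?_ h2
    have h3 : ∫ _z in Metric.ball (e x) r, F (e x) / 2 = c := by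
      rw [setIntegral_const, smul_eq_mul, mul_comm]
    rw [← h3]
    refine setIntegral_mono_on (integrableOn_const measure_ball_lt_top.ne) (hint.mono_set hsub)
      measurableSet_ball fun z hz => ?_
    obtain ⟨g1, g2, g3⟩ := hball z hz
    have g4 : ch G j (e.symm z) = 1 := cut_one hj (hjG.trans g3.le)
    show F (e x) / 2 ≤ (DD (A e) z).re * ((part n X).ρ i (e.symm z) * ch G j (e.symm z))
    rw [g4, mul_one]
    exact g2.le
  -- the limit
  set V := intX (dgK W) with hV
  have hV0 : 0 ≤ V := intX_nonneg fun e x hx => (dgK_pos hw hx).le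
  have hM0 := hG.M0
  set D : ℝ := K * C * V + 32 * K * C * (M * V) with hD
  have hD0 : 0 ≤ D := by positivity
  have hup : ∀ j : ℕ, 0 < j → intX (Maj G W M C K j) ≤ D / j := by
    intro j hj
    have hj' : (0 : ℝ) < j := by exact_mod_cast hj
    have hj1 : (1 : ℝ) ≤ j := by exact_mod_cast hj
    rw [intX_Maj hw hG j, ← hV, le_div_iff₀ hj', hD]
    have h1 : (K * C / j * V + 16 * K * C / j ^ 2 * ((j + 1) * (M * V))) * j =
        K * C * V + 16 * K * C * (M * V) * ((j + 1) / j) := by
      field_simp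
    rw [h1]
    have h2 : ((j : ℝ) + 1) / j ≤ 2 := by
      rw [div_le_iff₀ hj']; linarith
    have h3 : 0 ≤ 16 * K * C * (M * V) := by positivity
    nlinarith [mul_le_mul_of_nonneg_left h2 h3]
  obtain ⟨j1, hj1⟩ := exists_nat_gt (-(Real.log (G x / 2)))
  obtain ⟨j2, hj2⟩ := exists_nat_gt (D / c)
  set j := max 1 (max j1 j2) with hj
  have hjp : 0 < j := lt_of_lt_of_le one_pos (le_max_left _ _)
  have hj1' : (j1 : ℝ) ≤ j := by exact_mod_cast (le_max_left _ _).trans (le_max_right _ _)
  have hj2' : (j2 : ℝ) ≤ j := by exact_mod_cast (le_max_right _ _).trans (le_max_right _ _)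
  have g1 : Real.exp (-(j : ℝ)) ≤ G x / 2 := by
    rw [← Real.le_log_iff_exp_le (by linarith)]
    linarith
  have g2 := (key j hjp g1).trans (hup j hjp)
  have hj' : (0 : ℝ) < j := by exact_mod_cast hjp
  rw [le_div_iff₀ hj'] at g2
  have g3 : D / c < j := hj2.trans_le hj2'
  rw [div_lt_iff₀ hc0] at g3
  linarith

/-! ### bounds -/

/-- `A` is a continuous form of type `(n-1,n-1)` on `X` -/
structure CF (A : Chart n X → Cm n → Matrix (Fin n) (Fin n) ℂ) : Prop where
  cont : ∀ e x, At e x → ∀ j k, ContinuousAt (fun z => A e z j k) (e x)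
  change : ∀ e e' x, At e x → At e' x →
    jacM e e' x * A e (e x) * (jacM e e' x)ᴴ = ((‖(jacM e e' x).det‖ ^ 2 : ℝ) : ℂ) • A e' (e' x)

/-- `Θ` is a continuous form of type `(1,1)` on `X` -/
structure C11 (Θ : Chart n X → Cm n → Matrix (Fin n) (Fin n) ℂ) : Prop where
  cont : ∀ e x, At e x → ∀ j k, ContinuousAt (fun z => Θ e z j k) (e x)
  change : ∀ e e' x, At e x → At e' x → Θ e (e x) =
    (jacM e e' x)ᵀ * Θ e' (e' x) * (jacM e e' x).map (starRingEnd ℂ)

omit [IsManifold 𝓘(ℂ, Cm n) ω X] [T2Space X] [CompactSpace X] in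
theorem C11.ofK (hw : IsKahler W) : C11 W where
  cont e x hx j k := (hw.smooth e x hx j k).continuousAt
  change := hw.change

omit [IsManifold 𝓘(ℂ, Cm n) ω X] [T2Space X] [CompactSpace X] in
theorem CF.ofAg (hw : IsKahler W) : CF (AgK W) where
  cont e x hx j k := (AgK_smooth hw hx j k).continuousAt
  change e e' x hx hx' := (AgK_TF hw).change e e' x hx hx' (by simp)

theorem bdd_pr [T2Space X] [CompactSpace X] (hw : IsKahler W) (hA : CF A) (hΘ : C11 Θ) :
    ∃ C : ℝ, 0 ≤ C ∧ ∀ (e : Chart n X) x, At e x →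
      |(pr (A e (e x)) (Θ e (e x))).re| ≤ C * dgK W e (e x) := by
  set N : X → ℝ := fun z => (pr (A (chartAt (Cm n) z) (chartAt (Cm n) z z))
    (Θ (chartAt (Cm n) z) (chartAt (Cm n) z z))).re /
      dgK W (chartAt (Cm n) z) (chartAt (Cm n) z z) with hN
  have hc0 : ∀ z : X, At (chartAt (Cm n) z) z := fun z => ⟨chart_mem_atlas _ _, mem_chart_source _ _⟩
  have hN_eq : ∀ (c : Chart n X) (z : X), At c z →
      N z = (pr (A c (c z)) (Θ c (c z))).re / dgK W c (c z) := by
    intro c z hz
    have hz' := hc0 z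
    have h3 := pr_change (hA.change _ _ z hz' hz) (hΘ.change _ _ z hz' hz)
    have h4 := (dgK_density hw).change _ _ z hz' hz
    have hd := jacM_det_ne_zero hz' hz
    have hd' : (‖(jacM (chartAt (Cm n) z) c z).det‖ ^ 2 : ℝ) ≠ 0 := by positivity
    rw [hN]
    simp only
    rw [h3, h4, Complex.re_ofReal_mul, mul_comm (dgK W c (c z)), mul_div_mul_left _ _ hd']
  have hcont : Continuous N := by
    rw [continuous_iff_continuousAt]
    intro z
    set c := chartAt (Cm n) z with hc
    have hz : At c z := hc0 z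
    have h1 : ContinuousAt (fun ζ => (pr (A c ζ) (Θ c ζ)).re / dgK W c ζ) (c z) := by
      refine ContinuousAt.div ?_ ((dgK_density hw).cont c z hz) (dgK_pos hw hz).ne'
      refine Complex.continuous_re.continuousAt.comp ?_
      unfold pr
      exact tendsto_finsetSum _ fun a _ => tendsto_finsetSum _ fun b _ =>
        (hA.cont c z hz a b).mul (hΘ.cont c z hz a b)
    have h2 : ContinuousAt (fun y => (pr (A c (c y)) (Θ c (c y))).re / dgK W c (c y)) z :=
      ContinuousAt.comp (g := fun ζ => (pr (A c ζ) (Θ c ζ)).re / dgK W c ζ) h1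
        (c.continuousAt hz.2)
    refine h2.congr ?_
    filter_upwards [c.open_source.mem_nhds hz.2] with y hy
    exact (hN_eq c y ⟨hz.1, hy⟩).symm
  obtain ⟨C, hC⟩ := isCompact_univ.exists_bound_of_continuousOn hcont.continuousOn
  refine ⟨max C 0, le_max_right _ _, fun e x hx => ?_⟩
  have h1 := hC x (mem_univ x)
  have h2 := dgK_pos hw hx
  rw [hN_eq e x hx, Real.norm_eq_abs, abs_div, abs_of_pos h2, div_le_iff₀ h2] at h1
  exact h1.trans (mul_le_mul_of_nonneg_right (le_max_left _ _) h2.le)

end Vale.Agent.P284.H206.K
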