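import Vale.Agent.P284.H206.K.B2
import Vale.Agent.P284.H206.Sp.A7
import Vale.Agent.P284.H752.K1
import Vale.Agent.P284.H366.K.Alg

/-!
# P284 (helper206), K10: pointwise algebra for the form `ψ ∧ conj ψ ∧ W^{n-p-1}`
-/

open scoped Manifold ContDiff Topology ComplexOrder ComplexConjugate Matrix
open Filter Set MeasureTheory

noncomputable section

namespace Vale.Agent.P284.H206.K

open Vale.Agent.P272.K Vale.Agent.P272.K.INT Vale.Agent.P284.H206.Bog Vale.Agent.P284.H608.K
  Vale.Agent.P284.H366.K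

variable {n p : ℕ}

/-! ### positive semidefinite matrices -/

theorem pr_add_left (A A' H : Matrix (Fin n) (Fin n) ℂ) : pr (A + A') H = pr A H + pr A' H := by
  simp only [pr, Matrix.add_apply, add_mul, Finset.sum_add_distrib]

theorem pr_sum_left {ι : Type*} (s : Finset ι) (A : ι → Matrix (Fin n) (Fin n) ℂ)
    (H : Matrix (Fin n) (Fin n) ℂ) : pr (∑ i ∈ s, A i) H = ∑ i ∈ s, pr (A i) H := by
  classical
  induction s using Finset.induction_on with
  | empty => simp [pr]
  | insert a s ha ih => rw [Finset.sum_insert ha, Finset.sum_insert ha, pr_add_left, ih]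

theorem psd_decomp {A : Matrix (Fin n) (Fin n) ℂ} (hA : A.PosSemidef) :
    ∃ b : Fin n → Fin n → ℂ, A = ∑ i, Matrix.vecMulVec (b i) (star (b i)) := by
  obtain ⟨B, hB⟩ := Vale.Agent.P272.K.C2.exists_factor hA
  refine ⟨fun i => star (B i), ?_⟩
  ext j k
  rw [hB, Matrix.mul_apply, Matrix.sum_apply]
  refine Finset.sum_congr rfl fun i _ => ?_
  rw [Matrix.vecMulVec_apply, star_star, Matrix.conjTranspose_apply]
  rfl

theorem psd_bd {A g : Matrix (Fin n) (Fin n) ℂ} (hA : A.PosSemidef) (hg : g.PosDef)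
    (ξ : Fin n → ℂ) :
    0 ≤ (pr A (Matrix.vecMulVec ξ (star ξ))).re ∧
    (pr A (Matrix.vecMulVec ξ (star ξ))).re * g.det.re ≤
      (pr A g).re * (pr (g.adjugate)ᵀ (Matrix.vecMulVec ξ (star ξ))).re := by
  obtain ⟨b, rfl⟩ := psd_decomp hA
  rw [pr_sum_left, pr_sum_left, Complex.re_sum, Complex.re_sum, Finset.sum_mul, Finset.sum_mul]
  refine ⟨Finset.sum_nonneg fun i _ => ?_, Finset.sum_le_sum fun i _ => ?_⟩
  · rw [pr_vv, Complex.ofReal_re]
    positivity
  · have := cs1 hg (b i) ξ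
    rwa [pr_vv, Complex.ofReal_re]

/-! ### alternating forms -/

/-- the continuous version of an alternating form -/
def toAf (A : (Cm n) [⋀^Fin p]→ₗ[ℂ] ℂ) : Af n p :=
  { toContinuousMultilinearMap :=
      { toMultilinearMap := A.toMultilinearMap
        cont := by
          have h1 : (fun v : Fin p → Cm n => A v) = fun v => ∑ r : Fin p → Fin n, (∏ a, v a (r a)) *
              A (fun a => Pi.single (r a) 1) := by
            funext v
            exact alt_expand A v
          show Continuous fun v : Fin p → Cm n => A v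
          rw [h1]
          fun_prop }
    map_eq_zero_of_eq' := A.map_eq_zero_of_eq' }

theorem toAf_apply (A : (Cm n) [⋀^Fin p]→ₗ[ℂ] ℂ) (v : Fin p → Cm n) : toAf A v = A v := rfl

theorem ev_toAf (A : (Cm n) [⋀^Fin p]→ₗ[ℂ] ℂ) (s : Fin p → Fin n) :
    ev (toAf A) s = A (fun a => Pi.single (s a) 1) := rfl

theorem toAf_smul (c : ℂ) (A : (Cm n) [⋀^Fin p]→ₗ[ℂ] ℂ) : toAf (c • A) = c • toAf A := by
  ext v
  rfl

theorem wdz_apply (c : Fin n) (A : Af n p) (v : Fin (p + 1) → Cm n) :
    wdz c A v = ∑ j : Fin (p + 1), (-1) ^ (j : ℕ) * (v j c * A (fun a => v (j.succAbove a))) := by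
  rw [wdz, ContinuousAlternatingMap.alternatizeUncurryFin_apply]
  refine Finset.sum_congr rfl fun j _ => ?_
  simp only [ContinuousLinearMap.smulRight_apply, ContinuousAlternatingMap.smul_apply, smul_eq_mul,
    zsmul_eq_mul, Int.cast_pow, Int.cast_neg, Int.cast_one,
    ContinuousLinearMap.proj_apply]
  rfl

theorem wdz_smul (c : Fin n) (a : ℂ) (A : Af n p) : wdz c (a • A) = a • wdz c A := by
  ext v
  rw [ContinuousAlternatingMap.smul_apply, wdz_apply, wdz_apply, smul_eq_mul, Finset.mul_sum]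
  refine Finset.sum_congr rfl fun j _ => ?_
  rw [ContinuousAlternatingMap.smul_apply, smul_eq_mul]
  ring

/-- `dz_c ∧ A` pulled back by a linear map -/
theorem wdz_comp (L : Cm n →L[ℂ] Cm n) (c : Fin n) (A : Af n p) :
    (wdz c A).compContinuousLinearMap L =
      ∑ j, LinearMap.toMatrix' (L : Cm n →ₗ[ℂ] Cm n) c j • wdz j (A.compContinuousLinearMap L) := by
  ext v
  rw [ContinuousAlternatingMap.compContinuousLinearMap_apply, ContinuousAlternatingMap.sum_apply]
  simp only [ContinuousAlternatingMap.smul_apply, wdz_apply, smul_eq_mul, Finset.mul_sum]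
  rw [Finset.sum_comm]
  refine Finset.sum_congr rfl fun j _ => ?_
  have h1 : L (v j) c = ∑ l, LinearMap.toMatrix' (L : Cm n →ₗ[ℂ] Cm n) c l * v j l := by
    have h2 := congrFun (LinearMap.toMatrix'_mulVec (L : Cm n →ₗ[ℂ] Cm n) (v j)) c
    rw [Matrix.mulVec, dotProduct] at h2
    exact h2.symm
  have h3 : (L ∘ v) j = L (v j) := rfl
  rw [h3, h1, Finset.sum_mul, Finset.mul_sum]
  refine Finset.sum_congr rfl fun l _ => ?_
  rw [ContinuousAlternatingMap.compContinuousLinearMap_apply]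
  simp only [Function.comp_def]
  ring

/-- the matrix `det w ⟨dz_j ∧ A, dz_k ∧ A⟩` -/
def BM (w : Matrix (Fin n) (Fin n) ℂ) (A : Af n p) : Matrix (Fin n) (Fin n) ℂ :=
  Matrix.of fun j k => w.det * hn w (wdz j A) (wdz k A)

theorem BM_smul (w : Matrix (Fin n) (Fin n) ℂ) (c : ℂ) (A : Af n p) :
    BM w (c • A) = ((‖c‖ ^ 2 : ℝ) : ℂ) • BM w A := by
  ext j k
  simp only [BM, Matrix.of_apply, Matrix.smul_apply, smul_eq_mul, wdz_smul]
  rw [hn_smul_left, hn_smul_right, ← Complex.normSq_eq_norm_sq, ← Complex.mul_conj]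
  ring

theorem BM_psd {w : Matrix (Fin n) (Fin n) ℂ} (hw : w.PosDef) (A : Af n p) :
    (BM w A).PosSemidef := by
  have hd : 0 ≤ w.det := hw.det_pos.le
  have key : ∀ x : Fin n → ℂ, star x ⬝ᵥ (BM w A *ᵥ x) = w.det * hn w (∑ j, (star (x j)) • wdz j A)
      (∑ j, (star (x j)) • wdz j A) := by
    intro x
    rw [hn_sum_left]
    simp only [hn_sum_right, hn_smul_left, hn_smul_right, dotProduct, Matrix.mulVec, BM,
      Matrix.of_apply, Pi.star_apply, Finset.mul_sum]
    refine Finset.sum_congr rfl fun j _ => Finset.sum_congr rfl fun k _ => ?_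
    simp only [RCLike.star_def, Complex.conj_conj]
    ring
  refine Matrix.PosSemidef.of_dotProduct_mulVec_nonneg ?_ ?_
  · ext j k
    rw [Matrix.conjTranspose_apply]
    simp only [BM, Matrix.of_apply, star_mul', RCLike.star_def]
    have h1 : conj w.det = w.det := by
      have := hw.isHermitian
      have h2 := congrArg Matrix.det this.eq
      rwa [Matrix.det_conjTranspose] at h2
    rw [h1, ← Vale.Agent.P284.H752.k1_conj_symm hw]
  · intro x
    rw [key]
    refine mul_nonneg hd ?_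
    by_cases h0 : (∑ j, (star (x j)) • wdz j A) = 0
    · rw [h0, hn_zero_left]
    · exact (Vale.Agent.P284.H752.k1_pos hw _ h0).le

theorem BM_pull {w' : Matrix (Fin n) (Fin n) ℂ} (hw : w'.PosDef) (L : Cm n →L[ℂ] Cm n)
    (hL : Function.Bijective L) (A : Af n p) :
    LinearMap.toMatrix' (L : Cm n →ₗ[ℂ] Cm n) *
      BM ((LinearMap.toMatrix' (L : Cm n →ₗ[ℂ] Cm n))ᵀ * w' *
      (LinearMap.toMatrix' (L : Cm n →ₗ[ℂ] Cm n)).map (starRingEnd ℂ)) (A.compContinuousLinearMap L) *
      (LinearMap.toMatrix' (L : Cm n →ₗ[ℂ] Cm n))ᴴ =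
    ((‖(LinearMap.toMatrix' (L : Cm n →ₗ[ℂ] Cm n)).det‖ ^ 2 : ℝ) : ℂ) • BM w' A := by
  set J := LinearMap.toMatrix' (L : Cm n →ₗ[ℂ] Cm n) with hJ
  set w := Jᵀ * w' * J.map (starRingEnd ℂ) with hwd
  have hdet : w.det = ((‖J.det‖ ^ 2 : ℝ) : ℂ) * w'.det := by
    rw [hwd, Matrix.det_mul, Matrix.det_mul, Matrix.det_transpose]
    have h1 : (J.map (starRingEnd ℂ)).det = conj J.det := by
      rw [RingHom.map_det]; rfl
    rw [h1, ← Complex.normSq_eq_norm_sq, ← Complex.mul_conj]
    ring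
  ext c d
  rw [Matrix.smul_apply, smul_eq_mul, Matrix.mul_apply]
  simp only [Matrix.mul_apply, BM, Matrix.of_apply, Matrix.conjTranspose_apply]
  have h2 := Vale.Agent.P284.H752.k1_pull hw L hL (wdz c A) (wdz d A)
  rw [wdz_comp, wdz_comp, hn_sum_left] at h2
  simp only [hn_sum_right, hn_smul_left, hn_smul_right] at h2
  rw [← hJ, ← hwd] at h2
  have h3 : ∑ x, (∑ x_1, J c x_1 * (w.det * hn w (wdz x_1 (A.compContinuousLinearMap L))
      (wdz x (A.compContinuousLinearMap L)))) * star (J d x) =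
      w.det * ∑ i, J c i * ∑ i_1, conj (J d i_1) * hn w (wdz i (A.compContinuousLinearMap L))
      (wdz i_1 (A.compContinuousLinearMap L)) := by
    simp only [Finset.mul_sum, Finset.sum_mul]
    rw [Finset.sum_comm]
    refine Finset.sum_congr rfl fun i _ => Finset.sum_congr rfl fun k _ => ?_
    rw [RCLike.star_def]
    ring
  rw [h3]
  have h4 : ∑ i, J c i * ∑ i_1, conj (J d i_1) * hn w (wdz i (A.compContinuousLinearMap L))
      (wdz i_1 (A.compContinuousLinearMap L)) = hn w' (wdz c A) (wdz d A) := by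
    rw [← h2]
    refine Finset.sum_congr rfl fun i _ => ?_
    rw [Finset.mul_sum]
    refine Finset.sum_congr rfl fun k _ => ?_
    ring
  rw [h4, hdet]
  ring

end Vale.Agent.P284.H206.K
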