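import Vale.Agent.P284.H206.K.B3

/-!
# P284 (helper206), K10: the double divergence of `ψ ∧ conj ψ ∧ W^{n-p-1}` for a closed form `W`
-/

open scoped Manifold ContDiff Topology ComplexOrder ComplexConjugate Matrix
open Filter Set MeasureTheory

noncomputable section

namespace Vale.Agent.P284.H206.K

open Vale.Agent.P272.K Vale.Agent.P272.K.INT Vale.Agent.P284.H206.Bog Vale.Agent.P284.H608.K
  Vale.Agent.P284.H366.K

variable {n p : ℕ}

/-- a family of derivations at `z` -/
structure Der (z : Cm n) (D : Fin n → (Cm n → ℂ) → ℂ) : Prop where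
  mul : ∀ j (f g : Cm n → ℂ), DifferentiableAt ℝ f z → DifferentiableAt ℝ g z →
    D j (fun y => f y * g y) = D j f * g z + f z * D j g
  add : ∀ j (f g : Cm n → ℂ), DifferentiableAt ℝ f z → DifferentiableAt ℝ g z →
    D j (fun y => f y + g y) = D j f + D j g
  const : ∀ j c, D j (fun _ => c) = 0

theorem der_dz (z : Cm n) : Der z (fun j f => dz j f z) where
  mul _ _ _ hf hg := INT.dz_mul hf hg
  add _ _ _ hf hg := INT.dz_add hf hg
  const _ c := INT.dz_const c

theorem der_dzb (z : Cm n) : Der z (fun j f => dzb j f z) where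
  mul _ _ _ hf hg := INT.dzb_mul hf hg
  add _ _ _ hf hg := INT.dzb_add hf hg
  const _ c := INT.dzb_const c

section
variable {z : Cm n} {D : Fin n → (Cm n → ℂ) → ℂ}

theorem Der.sum (hD : Der z D) {ι : Type*} (s : Finset ι) {F : ι → Cm n → ℂ} (j : Fin n)
    (h : ∀ i ∈ s, DifferentiableAt ℝ (F i) z) :
    D j (fun y => ∑ i ∈ s, F i y) = ∑ i ∈ s, D j (F i) := by
  classical
  induction s using Finset.induction_on with
  | empty => simpa using hD.const j 0
  | insert a s ha ih =>
    simp only [Finset.sum_insert ha]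
    rw [hD.add j (F a) _ (h a (Finset.mem_insert_self a s))
      (DifferentiableAt.fun_sum fun i hi => h i (Finset.mem_insert_of_mem hi)),
      ih fun i hi => h i (Finset.mem_insert_of_mem hi)]

theorem diff_prod {ι : Type*} (s : Finset ι) {F : ι → Cm n → ℂ}
    (h : ∀ i ∈ s, DifferentiableAt ℝ (F i) z) : DifferentiableAt ℝ (fun y => ∏ i ∈ s, F i y) z := by
  classical
  induction s using Finset.induction_on with
  | empty => simp
  | insert a s ha ih =>
    simp only [Finset.prod_insert ha]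
    exact (h a (Finset.mem_insert_self a s)).mul (ih fun i hi => h i (Finset.mem_insert_of_mem hi))

theorem Der.prod (hD : Der z D) {ι : Type*} [DecidableEq ι] (s : Finset ι) {F : ι → Cm n → ℂ}
    (j : Fin n) (h : ∀ i ∈ s, DifferentiableAt ℝ (F i) z) :
    D j (fun y => ∏ i ∈ s, F i y) = ∑ i ∈ s, (∏ l ∈ s.erase i, F l z) * D j (F i) := by
  induction s using Finset.induction_on with
  | empty => simpa using hD.const j 1
  | insert a s ha ih =>
    simp only [Finset.prod_insert ha]
    rw [hD.mul j (F a) _ (h a (Finset.mem_insert_self a s))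
      (diff_prod s fun i hi => h i (Finset.mem_insert_of_mem hi)),
      ih fun i hi => h i (Finset.mem_insert_of_mem hi), Finset.sum_insert ha,
      Finset.erase_insert ha, Finset.mul_sum]
    congr 1
    · ring
    · refine Finset.sum_congr rfl fun i hi => ?_
      have hai : a ≠ i := fun h => ha (h ▸ hi)
      rw [Finset.erase_insert_of_ne hai, Finset.prod_insert (by
        simp only [Finset.mem_erase, not_and]
        exact fun _ => ha)]
      ring

/-- the positions of the metric in `Qp` -/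
def Spos (n p : ℕ) : Finset (Fin n) := Finset.univ.filter (fun k : Fin n => p ≤ (k : ℕ))

theorem Qp_def (hp : p ≤ n) (w : Matrix (Fin n) (Fin n) ℂ)
    (K : (Fin p → Fin n) → (Fin p → Fin n) → ℂ) : Qp hp w K =
  ∑ σ : Equiv.Perm (Fin n), ∑ τ : Equiv.Perm (Fin n),
    ((Equiv.Perm.sign σ : ℤ) : ℂ) * ((Equiv.Perm.sign τ : ℤ) : ℂ) *
      K (fun i => σ (Fin.castLE hp i)) (fun i => τ (Fin.castLE hp i)) *
      ∏ k ∈ Spos n p, w (σ k) (τ k) := rfl

theorem Qp_transpose (hp : p ≤ n) (w : Matrix (Fin n) (Fin n) ℂ)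
    (K : (Fin p → Fin n) → (Fin p → Fin n) → ℂ) : Qp hp w K = Qp hp wᵀ (fun s t => K t s) := by
  rw [Qp_def, Qp_def, Finset.sum_comm]
  refine Finset.sum_congr rfl fun σ _ => Finset.sum_congr rfl fun τ _ => ?_
  simp only [Matrix.transpose_apply]
  ring

/-- **the divergence**: the derivatives of the closed form `w` drop out -/
theorem div_Qp (hD : Der z D) (hp : p + 1 ≤ n) {w : Cm n → Matrix (Fin n) (Fin n) ℂ}
    (hw : ∀ j k, DifferentiableAt ℝ (fun y => w y j k) z)
    (hcl : ∀ l j k, D l (fun y => w y j k) = D j (fun y => w y l k))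
    {κ : (Fin p → Fin n) → (Fin (p + 1) → Fin n) → Cm n → ℂ}
    (hκ : ∀ s t, DifferentiableAt ℝ (κ s t) z) :
    ∑ j, D j (fun y => Qp hp (w y) (fun s t => if s 0 = j then κ (fun i => s i.succ) t y else 0)) =
      Qp hp (w z) (fun s t => D (s 0) (κ (fun i => s i.succ) t)) := by
  classical
  set a₀ : Fin n := Fin.castLE hp 0 with ha₀
  have hprodd : ∀ (σ τ : Equiv.Perm (Fin n)), DifferentiableAt ℝ
      (fun y => ∏ k ∈ Spos n (p + 1), w y (σ k) (τ k)) z := fun σ τ =>
    diff_prod _ fun i _ => hw _ _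
  -- expand the left-hand side
  have e1 : ∀ j, D j (fun y => Qp hp (w y) (fun s t => if s 0 = j then κ (fun i => s i.succ) t y else 0)) =
      ∑ σ : Equiv.Perm (Fin n), ∑ τ : Equiv.Perm (Fin n), if σ a₀ = j then
        ((Equiv.Perm.sign σ : ℤ) : ℂ) * ((Equiv.Perm.sign τ : ℤ) : ℂ) *
        (D j (κ (fun i => σ (Fin.castLE hp i.succ)) (fun i => τ (Fin.castLE hp i))) *
          ∏ k ∈ Spos n (p + 1), w z (σ k) (τ k) +
        κ (fun i => σ (Fin.castLE hp i.succ)) (fun i => τ (Fin.castLE hp i)) z *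
          ∑ k ∈ Spos n (p + 1), (∏ l ∈ (Spos n (p + 1)).erase k, w z (σ l) (τ l)) *
            D j (fun y => w y (σ k) (τ k))) else 0 := by
    intro j
    have hdiff : ∀ (σ τ : Equiv.Perm (Fin n)), DifferentiableAt ℝ (fun y =>
        ((Equiv.Perm.sign σ : ℤ) : ℂ) * ((Equiv.Perm.sign τ : ℤ) : ℂ) *
        (if σ a₀ = j then κ (fun i => σ (Fin.castLE hp i.succ)) (fun i => τ (Fin.castLE hp i)) y
          else 0) * ∏ k ∈ Spos n (p + 1), w y (σ k) (τ k)) z := by
      intro σ τ
      refine DifferentiableAt.mul (DifferentiableAt.mul (differentiableAt_const _) ?_) (hprodd σ τ)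
      split_ifs
      · exact hκ _ _
      · exact differentiableAt_const _
    have e2 : (fun y => Qp hp (w y) (fun s t => if s 0 = j then κ (fun i => s i.succ) t y else 0)) =
        fun y => ∑ σ : Equiv.Perm (Fin n), ∑ τ : Equiv.Perm (Fin n),
        ((Equiv.Perm.sign σ : ℤ) : ℂ) * ((Equiv.Perm.sign τ : ℤ) : ℂ) *
        (if σ a₀ = j then κ (fun i => σ (Fin.castLE hp i.succ)) (fun i => τ (Fin.castLE hp i)) y
          else 0) * ∏ k ∈ Spos n (p + 1), w y (σ k) (τ k) := rfl
    rw [e2, hD.sum Finset.univ j fun σ _ => DifferentiableAt.fun_sum fun τ _ => hdiff σ τ]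
    refine Finset.sum_congr rfl fun σ _ => ?_
    rw [hD.sum Finset.univ j fun τ _ => hdiff σ τ]
    refine Finset.sum_congr rfl fun τ _ => ?_
    split_ifs with h
    · set c : ℂ := ((Equiv.Perm.sign σ : ℤ) : ℂ) * ((Equiv.Perm.sign τ : ℤ) : ℂ) with hc
      set κ₀ := κ (fun i => σ (Fin.castLE hp i.succ)) (fun i => τ (Fin.castLE hp i)) with hκ₀
      have hκd : DifferentiableAt ℝ κ₀ z := hκ _ _
      have g1 := hD.mul j (fun _ => c) κ₀ (differentiableAt_const _) hκd
      have g2 := hD.mul j (fun y => c * κ₀ y) (fun y => ∏ k ∈ Spos n (p + 1), w y (σ k) (τ k))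
        ((differentiableAt_const _).mul hκd) (hprodd σ τ)
      have g3 := hD.prod (Spos n (p + 1)) (F := fun k y => w y (σ k) (τ k)) j fun i _ => hw _ _
      rw [g2, g1, g3, hD.const]
      ring
    · simp only [mul_zero, zero_mul]
      exact hD.const j 0
  have e3 : ∑ j, D j (fun y => Qp hp (w y) (fun s t => if s 0 = j then κ (fun i => s i.succ) t y else 0)) =
      ∑ σ : Equiv.Perm (Fin n), ∑ τ : Equiv.Perm (Fin n),
        ((Equiv.Perm.sign σ : ℤ) : ℂ) * ((Equiv.Perm.sign τ : ℤ) : ℂ) *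
        (D (σ a₀) (κ (fun i => σ (Fin.castLE hp i.succ)) (fun i => τ (Fin.castLE hp i))) *
          ∏ k ∈ Spos n (p + 1), w z (σ k) (τ k) +
        κ (fun i => σ (Fin.castLE hp i.succ)) (fun i => τ (Fin.castLE hp i)) z *
          ∑ k ∈ Spos n (p + 1), (∏ l ∈ (Spos n (p + 1)).erase k, w z (σ l) (τ l)) *
            D (σ a₀) (fun y => w y (σ k) (τ k))) := by
    simp only [e1]
    rw [Finset.sum_comm]
    refine Finset.sum_congr rfl fun σ _ => ?_
    rw [Finset.sum_comm]
    refine Finset.sum_congr rfl fun τ _ => ?_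
    rw [Finset.sum_ite_eq]
    simp
  rw [e3, Qp_def]
  simp only [mul_add, Finset.sum_add_distrib]
  have e4 : ∑ σ : Equiv.Perm (Fin n), ∑ τ : Equiv.Perm (Fin n),
        ((Equiv.Perm.sign σ : ℤ) : ℂ) * ((Equiv.Perm.sign τ : ℤ) : ℂ) *
        (κ (fun i => σ (Fin.castLE hp i.succ)) (fun i => τ (Fin.castLE hp i)) z *
          ∑ k ∈ Spos n (p + 1), (∏ l ∈ (Spos n (p + 1)).erase k, w z (σ l) (τ l)) *
            D (σ a₀) (fun y => w y (σ k) (τ k))) = 0 := by
    rw [Finset.sum_comm]
    refine Finset.sum_eq_zero fun τ _ => ?_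
    simp only [Finset.mul_sum]
    rw [Finset.sum_comm]
    refine Finset.sum_eq_zero fun k hk => ?_
    have hk' : p + 1 ≤ (k : ℕ) := by
      have := hk
      simp only [Spos, Finset.mem_filter, Finset.mem_univ, true_and] at this
      exact this
    have hne : a₀ ≠ k := by
      intro h
      have h1 : (a₀ : ℕ) = 0 := by simp [ha₀]
      rw [h] at h1
      omega
    set π : Equiv.Perm (Fin n) := Equiv.swap a₀ k with hπ
    set F : Equiv.Perm (Fin n) → ℂ := fun σ =>
      ((Equiv.Perm.sign σ : ℤ) : ℂ) * ((Equiv.Perm.sign τ : ℤ) : ℂ) *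
        (κ (fun i => σ (Fin.castLE hp i.succ)) (fun i => τ (Fin.castLE hp i)) z *
          ((∏ l ∈ (Spos n (p + 1)).erase k, w z (σ l) (τ l)) *
            D (σ a₀) (fun y => w y (σ k) (τ k)))) with hF
    have h1 : ∀ σ, F (σ * π) = -F σ := by
      intro σ
      have g1 : ∀ i : Fin p, (σ * π) (Fin.castLE hp i.succ) = σ (Fin.castLE hp i.succ) := by
        intro i
        rw [Equiv.Perm.mul_apply, hπ, Equiv.swap_apply_of_ne_of_ne]
        · intro h
          have := congrArg Fin.val h
          simp [ha₀] at this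
        · intro h
          have := congrArg Fin.val h
          simp only [Fin.val_castLE, Fin.val_succ] at this
          have := i.isLt
          omega
      have g2 : (σ * π) a₀ = σ k := by rw [Equiv.Perm.mul_apply, hπ, Equiv.swap_apply_left]
      have g3 : (σ * π) k = σ a₀ := by rw [Equiv.Perm.mul_apply, hπ, Equiv.swap_apply_right]
      have g4 : ∏ l ∈ (Spos n (p + 1)).erase k, w z ((σ * π) l) (τ l) =
          ∏ l ∈ (Spos n (p + 1)).erase k, w z (σ l) (τ l) := by
        refine Finset.prod_congr rfl fun l hl => ?_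
        rw [Finset.mem_erase] at hl
        have hl2 : p + 1 ≤ (l : ℕ) := by
          have := hl.2
          simp only [Spos, Finset.mem_filter, Finset.mem_univ, true_and] at this
          exact this
        rw [Equiv.Perm.mul_apply, hπ, Equiv.swap_apply_of_ne_of_ne _ hl.1]
        intro h
        rw [h] at hl2
        simp [ha₀] at hl2
      have g5 : ((Equiv.Perm.sign (σ * π) : ℤ) : ℂ) = -((Equiv.Perm.sign σ : ℤ) : ℂ) := by
        rw [Equiv.Perm.sign_mul, hπ, Equiv.Perm.sign_swap hne]
        simp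
      rw [hF]
      simp only [g1, g2, g3, g4, g5]
      rw [hcl (σ k) (σ a₀) (τ k)]
      ring
    have h2 : ∑ σ, F σ = ∑ σ, F (σ * π) := (Equiv.sum_comp (Equiv.mulRight π) F).symm
    have h3 : ∑ σ, F σ = -∑ σ, F σ := by
      conv_lhs => rw [h2]
      simp only [h1, Finset.sum_neg_distrib]
    have h4 : ∑ σ, F σ = 0 := by linear_combination (1 / 2 : ℂ) * h3
    exact h4
  rw [e4, add_zero]
  refine Finset.sum_congr rfl fun σ _ => Finset.sum_congr rfl fun τ _ => ?_
  rw [← mul_assoc]

/-- the conjugate version -/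
theorem div_Qp' (hD : Der z D) (hp : p + 1 ≤ n) {w : Cm n → Matrix (Fin n) (Fin n) ℂ}
    (hw : ∀ j k, DifferentiableAt ℝ (fun y => w y j k) z)
    (hcl : ∀ l j k, D l (fun y => w y k j) = D j (fun y => w y k l))
    {κ : (Fin (p + 1) → Fin n) → (Fin p → Fin n) → Cm n → ℂ}
    (hκ : ∀ s t, DifferentiableAt ℝ (κ s t) z) :
    ∑ j, D j (fun y => Qp hp (w y) (fun s t => if t 0 = j then κ s (fun i => t i.succ) y else 0)) =
      Qp hp (w z) (fun s t => D (t 0) (κ s (fun i => t i.succ))) := by
  have h := div_Qp hD hp (w := fun y => (w y)ᵀ) (κ := fun s t => κ t s) (fun j k => hw k j)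
    (fun l j k => hcl l j k) (fun s t => hκ t s)
  rw [Qp_transpose hp (w z)]
  rw [← h]
  refine Finset.sum_congr rfl fun j _ => ?_
  congr 1
  funext y
  rw [Qp_transpose hp (w y)]

end

end Vale.Agent.P284.H206.K
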