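import Vale.Agent.P284.H206.K.B4

/-!
# P284 (helper206), K10: `i∂∂̄ (ψ ∧ conj ψ ∧ W^{n-p-1}) = ∂ψ ∧ conj ∂ψ ∧ W^{n-p-1}` for a holomorphic form
-/

open scoped Manifold ContDiff Topology ComplexOrder ComplexConjugate Matrix
open Filter Set MeasureTheory

noncomputable section

namespace Vale.Agent.P284.H206.K

open Vale.Agent.P272.K Vale.Agent.P272.K.INT Vale.Agent.P284.H206.Bog Vale.Agent.P284.H608.K
  Vale.Agent.P284.H366.K Vale.Agent.P284.H206.Sp

variable {n p : ℕ}

/-- the constant `p!² (n-p-1)!` -/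
def cc (n p : ℕ) : ℂ := (p.factorial : ℂ) ^ 2 * ((n - p - 1).factorial : ℂ)

theorem cc_ne (n p : ℕ) : cc n p ≠ 0 := by
  unfold cc
  have h1 : (p.factorial : ℂ) ≠ 0 := by exact_mod_cast p.factorial_ne_zero
  have h2 : ((n - p - 1).factorial : ℂ) ≠ 0 := by exact_mod_cast (n - p - 1).factorial_ne_zero
  exact mul_ne_zero (pow_ne_zero _ h1) h2

/-- the kernel of the matrix `BM` -/
def QB (hp : p + 1 ≤ n) (w : Matrix (Fin n) (Fin n) ℂ) (f : (Fin p → Fin n) → ℂ) (j k : Fin n) : ℂ :=
  Qp hp w (fun s t => (if s 0 = j then f (fun i => s i.succ) else 0) *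
    conj (if t 0 = k then f (fun i => t i.succ) else 0))

theorem smulRight_zero' (a : Fin n) :
    (ContinuousLinearMap.proj (R := ℂ) (φ := fun _ : Fin n => ℂ) a).smulRight (0 : Af n p) = 0 := by
  ext v
  simp

theorem BM_eq (hp : p + 1 ≤ n) {w : Matrix (Fin n) (Fin n) ℂ} (hw : w.PosDef) (A : Af n p)
    (j k : Fin n) : cc n p * BM w A j k = QB hp w (ev A) j k := by
  have h := Vale.Agent.P284.H752.k1_F2 hp hw (fun a => if a = j then A else 0)
    (fun a => if a = k then A else 0)
  have h1 : ∀ l : Fin n, (∑ a, (ContinuousLinearMap.proj (R := ℂ) (φ := fun _ : Fin n => ℂ) a).smulRight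
      (if a = l then A else 0)) =
      (ContinuousLinearMap.proj (R := ℂ) (φ := fun _ : Fin n => ℂ) l).smulRight A := by
    intro l
    rw [Finset.sum_eq_single l]
    · rw [if_pos rfl]
    · intro b _ hb
      rw [if_neg hb, smulRight_zero']
    · intro h; exact absurd (Finset.mem_univ l) h
  rw [h1, h1] at h
  have h2 : QB hp w (ev A) j k = Qp hp w (fun s t => ev (if s 0 = j then A else 0)
      (fun i => s i.succ) * conj (ev (if t 0 = k then A else 0) fun i => t i.succ)) := by
    unfold QB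
    congr 1
    funext s t
    congr 1
    · split_ifs <;> rfl
    · congr 1
      split_ifs <;> rfl
  rw [h2, h]
  unfold cc BM
  rw [Matrix.of_apply]
  show _ = (p.factorial : ℂ) ^ 2 * ((n - p - 1).factorial : ℂ) * w.det * hn w (wdz j A) (wdz k A)
  ring

/-! ### derivatives of a family of forms -/

open Classical in
/-- the derivative of a holomorphic family of forms -/
def dD (η : Cm n → (Cm n) [⋀^Fin p]→ₗ[ℂ] ℂ) (a : Fin n) (z : Cm n) : (Cm n) [⋀^Fin p]→ₗ[ℂ] ℂ :=
  if h : AnF η z then
    { toFun := fun v => fderiv ℂ (fun y => η y v) z (Pi.single a 1)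
      map_update_add' := by
        intro inst m i x y
        have e1 : (fun y' => η y' (Function.update m i (x + y))) = fun y' =>
            η y' (Function.update m i x) + η y' (Function.update m i y) := by
          funext y'
          exact (η y').map_update_add m i x y
        rw [e1, fderiv_fun_add (h _).differentiableAt (h _).differentiableAt]
        rfl
      map_update_smul' := by
        intro inst m i c x
        have e1 : (fun y' => η y' (Function.update m i (c • x))) = fun y' =>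
            c • η y' (Function.update m i x) := by
          funext y'
          exact (η y').map_update_smul m i c x
        rw [e1, fderiv_fun_const_smul (h _).differentiableAt]
        rfl
      map_eq_zero_of_eq' := by
        intro v i j hv hij
        have e1 : (fun y' => η y' v) = fun _ => 0 := by
          funext y'
          exact (η y').map_eq_zero_of_eq v hv hij
        show fderiv ℂ (fun y' => η y' v) z (Pi.single a 1) = 0
        rw [e1]
        simp }
  else 0

theorem dD_apply {η : Cm n → (Cm n) [⋀^Fin p]→ₗ[ℂ] ℂ} {z : Cm n} (h : AnF η z) (a : Fin n)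
    (v : Fin p → Cm n) : dD η a z v = fderiv ℂ (fun y => η y v) z (Pi.single a 1) := by
  rw [dD, dif_pos h]
  rfl

/-- `∂η` -/
def dA (η : Cm n → (Cm n) [⋀^Fin p]→ₗ[ℂ] ℂ) (z : Cm n) : Af n (p + 1) :=
  ContinuousAlternatingMap.alternatizeUncurryFin
    (∑ a, (ContinuousLinearMap.proj (R := ℂ) (φ := fun _ : Fin n => ℂ) a).smulRight (toAf (dD η a z)))

/-- the coefficients of a family of forms -/
def fI (η : Cm n → (Cm n) [⋀^Fin p]→ₗ[ℂ] ℂ) (I : Fin p → Fin n) (y : Cm n) : ℂ :=
  η y (fun a => Pi.single (I a) 1)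

theorem fI_an {η : Cm n → (Cm n) [⋀^Fin p]→ₗ[ℂ] ℂ} {z : Cm n} (h : AnF η z) (I : Fin p → Fin n) :
    AnalyticAt ℂ (fI η I) z := h _

theorem fI_diff {η : Cm n → (Cm n) [⋀^Fin p]→ₗ[ℂ] ℂ} {z : Cm n} (h : AnF η z) (I : Fin p → Fin n) :
    DifferentiableAt ℝ (fI η I) z := (fI_an h I).differentiableAt.restrictScalars ℝ

theorem fI_cd {η : Cm n → (Cm n) [⋀^Fin p]→ₗ[ℂ] ℂ} {z : Cm n} (h : AnF η z) (I : Fin p → Fin n) :
    ContDiffAt ℝ ∞ (fI η I) z :=
  ((fI_an h I).contDiffAt (n := ω) |>.restrict_scalars ℝ).of_le (by exact le_top)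

theorem conj_cd {f : Cm n → ℂ} {z : Cm n} (h : ContDiffAt ℝ ∞ f z) :
    ContDiffAt ℝ ∞ (fun y => conj (f y)) z :=
  Complex.conjCLE.contDiff.contDiffAt.comp z h

theorem fI_dz {η : Cm n → (Cm n) [⋀^Fin p]→ₗ[ℂ] ℂ} {z : Cm n} (h : AnF η z) (I : Fin p → Fin n)
    (a : Fin n) : dz a (fI η I) z = ev (toAf (dD η a z)) I := by
  rw [ev_toAf, dD_apply h, INT.dz_of_holo (fI_an h I).differentiableAt]
  rfl

/-! ### smoothness -/

theorem Qp_cd (hp : p ≤ n) {w : Cm n → Matrix (Fin n) (Fin n) ℂ} {z : Cm n}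
    (hw : ∀ j k, ContDiffAt ℝ ∞ (fun y => w y j k) z)
    {κ : (Fin p → Fin n) → (Fin p → Fin n) → Cm n → ℂ} (hκ : ∀ s t, ContDiffAt ℝ ∞ (κ s t) z) :
    ContDiffAt ℝ ∞ (fun y => Qp hp (w y) (fun s t => κ s t y)) z := by
  unfold Qp
  refine ContDiffAt.sum fun σ _ => ContDiffAt.sum fun τ _ => ?_
  exact (contDiffAt_const.mul (hκ _ _)).mul (contDiffAt_prod fun i _ => hw _ _)

section
variable {X : Type*} [TopologicalSpace X] [ChartedSpace (Cm n) X]
  {W : Chart n X → Cm n → Matrix (Fin n) (Fin n) ℂ}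

theorem QB_cd (hw : IsKahler W) (hp : p + 1 ≤ n) {e : Chart n X} {x : X} (hx : At e x)
    {η : Cm n → (Cm n) [⋀^Fin p]→ₗ[ℂ] ℂ} (hη : AnF η (e x)) (j k : Fin n) :
    ContDiffAt ℝ ∞ (fun y => QB hp (W e y) (fun I => fI η I y) j k) (e x) := by
  unfold QB
  refine Qp_cd hp (fun j k => hw.smooth e x hx j k) (κ := fun s t y =>
    (if s 0 = j then fI η (fun i => s i.succ) y else 0) *
    conj (if t 0 = k then fI η (fun i => t i.succ) y else 0)) fun s t => ContDiffAt.mul ?_ ?_
  · split_ifs
    · exact fI_cd hη _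
    · exact contDiffAt_const
  · split_ifs
    · exact conj_cd (fI_cd hη _)
    · exact contDiffAt_const

variable [IsManifold 𝓘(ℂ, Cm n) ω X]

theorem pos_ev (hw : IsKahler W) {e : Chart n X} {x : X} (hx : At e x) :
    ∀ᶠ y in 𝓝 (e x), (W e y).PosDef ∧ (∀ j k, ContDiffAt ℝ ∞ (fun y => W e y j k) y) ∧
      (∀ l j k, dz l (fun y => W e y j k) y = dz j (fun y => W e y l k) y) := by
  filter_upwards [hx.nhds_at hx] with z hz
  have h1 := hw.posDef e _ hz.2.1
  have h2 := hw.smooth e _ hz.2.1
  have h3 := hw.closed e _ hz.2.1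
  rw [e.right_inv hz.1] at h1 h2 h3
  exact ⟨h1, h2, fun l j k => h3 j k l⟩

theorem BM_ev (hw : IsKahler W) (hp : p + 1 ≤ n) {e : Chart n X} {x : X} (hx : At e x)
    (η : Cm n → (Cm n) [⋀^Fin p]→ₗ[ℂ] ℂ) (j k : Fin n) :
    (fun y => BM (W e y) (toAf (η y)) j k) =ᶠ[𝓝 (e x)]
      fun y => (cc n p)⁻¹ * QB hp (W e y) (fun I => fI η I y) j k := by
  filter_upwards [pos_ev hw hx] with y hy
  have h := BM_eq hp hy.1 (toAf (η y)) j k
  have h2 : QB hp (W e y) (fun I => fI η I y) j k = QB hp (W e y) (ev (toAf (η y))) j k := rfl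
  rw [h2, ← h, inv_mul_cancel_left₀ (cc_ne n p)]

theorem BM_cd (hw : IsKahler W) (hp : p + 1 ≤ n) {e : Chart n X} {x : X} (hx : At e x)
    {η : Cm n → (Cm n) [⋀^Fin p]→ₗ[ℂ] ℂ} (hη : AnF η (e x)) (j k : Fin n) :
    ContDiffAt ℝ ∞ (fun y => BM (W e y) (toAf (η y)) j k) (e x) :=
  (contDiffAt_const.mul (QB_cd hw hp hx hη j k)).congr_of_eventuallyEq (BM_ev hw hp hx η j k)

theorem dzb_closed (hw : IsKahler W) {e : Chart n X} {x : X} (hx : At e x) (l j k : Fin n) :
    dzb l (fun y => W e y k j) (e x) = dzb j (fun y => W e y k l) (e x) := by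
  have h1 : ∀ a b, (fun y => W e y a b) =ᶠ[𝓝 (e x)] fun y => conj (W e y b a) := by
    intro a b
    filter_upwards [pos_ev hw hx] with y hy
    have := congrFun (congrFun hy.1.isHermitian.eq a) b
    rw [Matrix.conjTranspose_apply] at this
    exact this.symm
  rw [INT.dzb_congr (h1 k j), INT.dzb_congr (h1 k l), INT.dzb_conj, INT.dzb_conj]
  congr 1
  exact (pos_ev hw hx).self_of_nhds.2.2 l j k

/-- **the double divergence** -/
theorem DD_BM (hw : IsKahler W) (hp : p + 1 ≤ n) {e : Chart n X} {x : X} (hx : At e x)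
    {η : Cm n → (Cm n) [⋀^Fin p]→ₗ[ℂ] ℂ} (hη : AnF η (e x)) :
    DD (fun y => BM (W e y) (toAf (η y))) (e x) =
      (W e (e x)).det * hn (W e (e x)) (dA η (e x)) (dA η (e x)) := by
  have hev : ∀ᶠ y in 𝓝 (e x), AnF η y := hη.ev
  -- the first divergence
  have s1 : ∀ j, (fun y => ∑ k, dzb k (fun y => QB hp (W e y) (fun I => fI η I y) j k) y) =ᶠ[𝓝 (e x)]
      fun y => Qp hp (W e y) (fun s t => if s 0 = j then
        fI η (fun i => s i.succ) y * conj (dz (t 0) (fI η (fun i => t i.succ)) y) else 0) := by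
    intro j
    filter_upwards [hx.nhds_at hx, hev, pos_ev hw hx] with z hz hηz hpz
    have hcl : ∀ l j k, dzb l (fun y => W e y k j) z = dzb j (fun y => W e y k l) z := by
      intro l j k
      have := dzb_closed hw hz.2.1 l j k
      rwa [e.right_inv hz.1] at this
    have h := div_Qp' (der_dzb z) hp (w := W e) (fun j k => (hpz.2.1 j k).differentiableAt (by simp))
      hcl (κ := fun s t y => (if s 0 = j then fI η (fun i => s i.succ) y else 0) * conj (fI η t y))
      (fun s t => by
        refine DifferentiableAt.mul ?_ ?_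
        · split_ifs
          · exact fI_diff hηz _
          · exact differentiableAt_const _
        · exact Complex.conjCLE.differentiableAt.comp z (fI_diff hηz t))
    have e1 : ∀ k, (fun y => Qp hp (W e y) (fun s t => if t 0 = k then
        (if s 0 = j then fI η (fun i => s i.succ) y else 0) * conj (fI η (fun i => t i.succ) y)
          else 0)) = fun y => QB hp (W e y) (fun I => fI η I y) j k := by
      intro k
      funext y
      unfold QB
      congr 1
      funext s t
      by_cases h : t 0 = k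
      · rw [if_pos h, if_pos h]
      · rw [if_neg h, if_neg h, map_zero, mul_zero]
    simp only [e1] at h
    rw [h]
    congr 1
    funext s t
    by_cases h0 : s 0 = j
    · simp only [if_pos h0]
      have hcd : DifferentiableAt ℝ (fun y => conj (fI η (fun i => t i.succ) y)) z :=
        Complex.conjCLE.differentiableAt.comp z (fI_diff hηz _)
      rw [INT.dzb_mul (fI_diff hηz _) hcd, INT.dzb_of_holo (fI_an hηz _).differentiableAt]
      have e2 : dzb (t 0) (fun y => conj (fI η (fun i => t i.succ) y)) z =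
        conj (dz (t 0) (fI η (fun i => t i.succ)) z) := INT.dzb_conj
      rw [zero_mul, zero_add]
      congr 1
    · simp only [if_neg h0, zero_mul]
      exact INT.dzb_const 0
  -- the second divergence
  have hpz := (pos_ev hw hx).self_of_nhds
  have hdan : ∀ (a : Fin n) (I : Fin p → Fin n), AnalyticAt ℂ (fun y => dz a (fI η I) y) (e x) := by
    intro a I
    have h1 : AnalyticAt ℂ (fun y => fderiv ℂ (fI η I) y (Pi.single a 1)) (e x) :=
      (ContinuousLinearMap.apply ℂ ℂ (Pi.single a 1 : Cm n)).analyticAt _ |>.comp (fI_an hη I).fderiv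
    refine h1.congr ?_
    filter_upwards [hev] with y hy
    exact (INT.dz_of_holo (fI_an hy I).differentiableAt a).symm
  have s2 : ∑ j, dz j (fun y => Qp hp (W e y) (fun s t => if s 0 = j then
        fI η (fun i => s i.succ) y * conj (dz (t 0) (fI η (fun i => t i.succ)) y) else 0)) (e x) =
      Qp hp (W e (e x)) (fun s t => dz (s 0) (fI η (fun i => s i.succ)) (e x) *
        conj (dz (t 0) (fI η (fun i => t i.succ)) (e x))) := by
    have hd2 : ∀ (a : Fin n) (I : Fin p → Fin n), DifferentiableAt ℝ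
        (fun y => conj (dz a (fI η I) y)) (e x) := fun a I =>
      Complex.conjCLE.differentiableAt.comp (e x)
        ((hdan a I).differentiableAt.restrictScalars ℝ)
    have h := div_Qp (der_dz (e x)) hp (w := W e) (fun j k => (hpz.2.1 j k).differentiableAt (by simp))
      hpz.2.2 (κ := fun s t y => fI η s y * conj (dz (t 0) (fI η (fun i => t i.succ)) y))
      (fun s t => (fI_diff hη _).mul (hd2 _ _))
    rw [h]
    congr 1
    funext s t
    rw [INT.dz_mul (fI_diff hη _) (hd2 _ _)]
    have e2 : dz (s 0) (fun y => conj (dz (t 0) (fI η (fun i => t i.succ)) y)) (e x) =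
        conj (dzb (s 0) (fun y => dz (t 0) (fI η (fun i => t i.succ)) y) (e x)) := INT.dz_conj
    rw [e2, INT.dzb_of_holo (hdan _ _).differentiableAt, map_zero, mul_zero, add_zero]
  -- assembly
  have s3 : DD (fun y => BM (W e y) (toAf (η y))) (e x) = (cc n p)⁻¹ *
      Qp hp (W e (e x)) (fun s t => dz (s 0) (fI η (fun i => s i.succ)) (e x) *
        conj (dz (t 0) (fI η (fun i => t i.succ)) (e x))) := by
    rw [← s2, Finset.mul_sum]
    unfold DD
    refine Finset.sum_congr rfl fun j _ => ?_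
    have hq : ∀ᶠ y in 𝓝 (e x), ∀ k, ContDiffAt ℝ ∞ (fun y => QB hp (W e y) (fun I => fI η I y) j k) y := by
      filter_upwards [hx.nhds_at hx, hev] with z hz hηz k
      have := QB_cd hw hp hz.2.1 (η := η) (by rw [e.right_inv hz.1]; exact hηz) j k
      rwa [e.right_inv hz.1] at this
    have e3 : ∀ k, (dzb k fun y => BM (W e y) (toAf (η y)) j k) =ᶠ[𝓝 (e x)]
        fun y => (cc n p)⁻¹ * dzb k (fun y => QB hp (W e y) (fun I => fI η I y) j k) y := by
      intro k
      refine (INT.dzb_congr' (BM_ev hw hp hx η j k)).trans ?_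
      filter_upwards [hq] with y hy
      exact INT.dzb_const_mul _ ((hy k).differentiableAt (by simp))
    have hq2 : ∀ k, DifferentiableAt ℝ (fun y => dzb k (fun y => QB hp (W e y) (fun I => fI η I y) j k) y)
        (e x) := fun k => (INT.smooth_dzb (hq.self_of_nhds k)).differentiableAt (by simp)
    have e4 : ∀ k, dz j (dzb k fun y => BM (W e y) (toAf (η y)) j k) (e x) =
        (cc n p)⁻¹ * dz j (fun y => dzb k (fun y => QB hp (W e y) (fun I => fI η I y) j k) y) (e x) := by
      intro k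
      rw [INT.dz_congr (e3 k)]
      exact INT.dz_const_mul _ (hq2 k)
    simp only [e4]
    rw [← Finset.mul_sum, ← INT.dz_sum Finset.univ fun k _ => hq2 k, INT.dz_congr (s1 j)]
  have h5 := Vale.Agent.P284.H752.k1_F2 hp hpz.1 (fun a => toAf (dD η a (e x)))
    (fun a => toAf (dD η a (e x)))
  have h6 : Qp hp (W e (e x)) (fun s t => dz (s 0) (fI η (fun i => s i.succ)) (e x) *
        conj (dz (t 0) (fI η (fun i => t i.succ)) (e x))) =
      cc n p * (W e (e x)).det * hn (W e (e x)) (dA η (e x)) (dA η (e x)) := by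
    rw [show cc n p * (W e (e x)).det * hn (W e (e x)) (dA η (e x)) (dA η (e x)) = _ from h5.symm]
    congr 1
    funext s t
    rw [fI_dz hη, fI_dz hη]
  rw [s3, h6]
  have := cc_ne n p
  field_simp

end

end Vale.Agent.P284.H206.K
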