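import Vale.Agent.P284.H206.K.B5
import Vale.Agent.P284.H248.Defs

/-!
# P284 (helper206), K10: a smooth Hermitian metric on a line bundle; the weight of a section
-/

open scoped Manifold ContDiff Topology ComplexOrder ComplexConjugate Matrix
open Filter Set MeasureTheory

noncomputable section

namespace Vale.Agent.P284.H206.K

open Vale.Agent.P272.K Vale.Agent.P272.K.INT Vale.Agent.P284.H206.Bog Vale.Agent.P284.H248

variable {n : ℕ} {X : Type} [TopologicalSpace X] [ChartedSpace (Cm n) X]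
  [IsManifold 𝓘(ℂ, Cm n) ω X]

/-- a finite smooth partition of unity subordinate to the trivialising sets of a line bundle -/
structure LPart (L : LineBundle n X) where
  N : ℕ
  c : Fin N → L.ι
  b : Fin N → X → ℝ
  smooth : ∀ a, SmoothFn (n := n) (b a)
  nonneg : ∀ a x, 0 ≤ b a x
  supp : ∀ a, tsupport (b a) ⊆ L.U (c a)
  sum : ∀ x, ∑ a, b a x = 1

theorem exists_lpart [T2Space X] [CompactSpace X] (L : LineBundle n X) : Nonempty (LPart L) := by
  have := isManifold_real n X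
  obtain ⟨t, ht⟩ := isCompact_univ.elim_finite_subcover
    (fun i : L.ι => L.U i) (fun i => L.isOpen i)
    (fun x _ => by obtain ⟨i, hi⟩ := L.cover x; exact mem_iUnion.2 ⟨i, hi⟩)
  let N := t.card
  let c : Fin N → L.ι := fun i => (t.equivFin.symm i : L.ι)
  have hc : (univ : Set X) ⊆ ⋃ i, L.U (c i) := by
    intro x hx
    obtain ⟨y, hy⟩ := mem_iUnion.1 (ht hx)
    obtain ⟨hyt, hxy⟩ := mem_iUnion.1 hy
    exact mem_iUnion.2 ⟨t.equivFin ⟨y, hyt⟩, by simpa [c] using hxy⟩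
  obtain ⟨f, hf⟩ := SmoothPartitionOfUnity.exists_isSubordinate 𝓘(ℝ, Cm n)
    isClosed_univ (fun i => L.U (c i)) (fun i => L.isOpen (c i)) hc
  refine ⟨⟨N, c, fun i => f i,
    fun i => smoothFn_of_contMDiff (f i).contMDiff,
    fun i x => f.nonneg i x, fun i => hf i, fun x => ?_⟩⟩
  have := f.sum_eq_one (mem_univ x)
  rwa [finsum_eq_sum_of_fintype] at this

/-- the index of a trivialising set -/
def ixn (L : LineBundle n X) (x : X) : L.ι := Classical.choose (L.cover x)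

omit [IsManifold 𝓘(ℂ, Cm n) ω X] in
theorem ixn_mem (L : LineBundle n X) (x : X) : x ∈ L.U (ixn L x) := Classical.choose_spec (L.cover x)

section
variable {L : LineBundle n X} (P : LPart L) {k : ℕ}

/-- the square of the norm of the frame -/
def HH (i : L.ι) (x : X) : ℝ := ∑ a, P.b a x * ‖L.g i (P.c a) x‖ ^ 2

omit [IsManifold 𝓘(ℂ, Cm n) ω X] in
theorem LPart.mem {a : Fin P.N} {x : X} (h : P.b a x ≠ 0) : x ∈ L.U (P.c a) :=
  P.supp a (subset_tsupport _ h)

omit [IsManifold 𝓘(ℂ, Cm n) ω X] in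
theorem HH_pos {i : L.ι} {x : X} (hi : x ∈ L.U i) : 0 < HH P i x := by
  obtain ⟨a, ha⟩ : ∃ a, 0 < P.b a x := by
    by_contra hcon
    push Not at hcon
    have h1 := P.sum x
    have h2 : ∑ a, P.b a x ≤ 0 := Finset.sum_nonpos fun a _ => hcon a
    linarith
  refine Finset.sum_pos' (fun a _ => mul_nonneg (P.nonneg a x) (by positivity)) ⟨a, Finset.mem_univ _, ?_⟩
  have h1 := L.ne_zero i (P.c a) x hi (P.mem ha.ne')
  have h2 := norm_pos_iff.2 h1
  positivity

omit [IsManifold 𝓘(ℂ, Cm n) ω X] in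
theorem HH_change {i i' : L.ι} {x : X} (hi : x ∈ L.U i) (hi' : x ∈ L.U i') :
    HH P i x = ‖L.g i i' x‖ ^ 2 * HH P i' x := by
  unfold HH
  rw [Finset.mul_sum]
  refine Finset.sum_congr rfl fun a _ => ?_
  by_cases h : P.b a x = 0
  · rw [h]; simp
  · rw [← L.cocycle i i' (P.c a) x hi hi' (P.mem h), norm_mul]
    ring

omit [IsManifold 𝓘(ℂ, Cm n) ω X] in
theorem HH_smooth {i : L.ι} {e : Chart n X} {x : X} (hx : At e x) (hi : x ∈ L.U i) :
    ContDiffAt ℝ ∞ (fun z => HH P i (e.symm z)) (e x) := by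
  unfold HH
  refine ContDiffAt.sum fun a _ => ?_
  by_cases h : x ∈ tsupport (P.b a)
  · have h1 := L.holo i (P.c a) e x hx hi (P.supp a h)
    exact (P.smooth a e x hx).mul (((h1.restrict_scalars ℝ).of_le (by exact le_top)).norm_sq ℝ)
  · have h1 : ∀ᶠ y in 𝓝 x, P.b a y = 0 := by
      filter_upwards [(isClosed_tsupport (P.b a)).isOpen_compl.mem_nhds h] with y hy
      exact image_eq_zero_of_notMem_tsupport hy
    have h2 : (fun z => P.b a (e.symm z) * ‖L.g i (P.c a) (e.symm z)‖ ^ 2) =ᶠ[𝓝 (e x)]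
        fun _ => 0 := by
      filter_upwards [ev_symm hx h1] with z hz
      rw [hz, zero_mul]
    exact contDiffAt_const.congr_of_eventuallyEq h2

omit [IsManifold 𝓘(ℂ, Cm n) ω X] in
theorem logHH_smooth {i : L.ι} {e : Chart n X} {x : X} (hx : At e x) (hi : x ∈ L.U i) :
    ContDiffAt ℝ ∞ (fun z => Real.log (HH P i (e.symm z))) (e x) := by
  refine (HH_smooth P hx hi).log ?_
  rw [hx.left_inv]
  exact (HH_pos P hi).ne'

omit [IsManifold 𝓘(ℂ, Cm n) ω X] in
theorem U_evn {c : Chart n X} {z : X} (hz : At c z) {i : L.ι} (hi : z ∈ L.U i) :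
    ∀ᶠ ζ in 𝓝 (c z), ζ ∈ c.target ∧ At c (c.symm ζ) ∧ c.symm ζ ∈ L.U i := by
  have h2 : ∀ᶠ ζ in 𝓝 (c z), c.symm ζ ∈ L.U i :=
    ev_symm hz ((L.isOpen i).mem_nhds hi)
  filter_upwards [hz.nhds_target, h2] with ζ h h'
  exact ⟨h, At.of_target hz.1 h, h'⟩

omit [IsManifold 𝓘(ℂ, Cm n) ω X] in
theorem cHess_HH {i i' : L.ι} {e : Chart n X} {x : X} (hx : At e x) (hi : x ∈ L.U i)
    (hi' : x ∈ L.U i') : cHess (fun z => Real.log (HH P i (e.symm z))) (e x) =
      cHess (fun z => Real.log (HH P i' (e.symm z))) (e x) := by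
  have hg := L.holo i i' e x hx hi hi'
  have hg0 : (fun z => L.g i i' (e.symm z)) (e x) ≠ 0 := by
    simp only
    rw [hx.left_inv]
    exact L.ne_zero i i' x hi hi'
  have h1 : (fun z => Real.log (HH P i (e.symm z))) =ᶠ[𝓝 (e x)]
      fun z => Real.log (‖L.g i i' (e.symm z)‖ ^ 2) + Real.log (HH P i' (e.symm z)) := by
    filter_upwards [U_evn hx hi, U_evn hx hi'] with z hz hz'
    have h2 := L.ne_zero i i' _ hz.2.2 hz'.2.2
    have h3 := HH_pos P hz'.2.2
    rw [HH_change P hz.2.2 hz'.2.2, Real.log_mul (by positivity) h3.ne']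
  have h2 : ContDiffAt ℝ 2 (fun z => Real.log (‖L.g i i' (e.symm z)‖ ^ 2)) (e x) := by
    have h3 : ContDiffAt ℝ 2 (fun z => L.g i i' (e.symm z)) (e x) :=
      (hg.restrict_scalars ℝ).of_le (by exact le_top)
    refine (h3.norm_sq ℝ).log ?_
    have := norm_pos_iff.2 hg0
    simp only at this
    positivity
  rw [C2.cHess_congr h1, C2.cHess_add h2 ((logHH_smooth P hx hi').of_le two_le_inf),
    cHess_log_norm_sq hg hg0, zero_add]

/-- the curvature -/
def Th (k : ℕ) (e : Chart n X) (z : Cm n) : Matrix (Fin n) (Fin n) ℂ :=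
  (k : ℂ) • cHess (fun y => Real.log (HH P (ixn L (e.symm z)) (e.symm y))) z

omit [IsManifold 𝓘(ℂ, Cm n) ω X] in
theorem Th_eq {i : L.ι} {e : Chart n X} {x : X} (hx : At e x) (hi : x ∈ L.U i) :
    Th P k e (e x) = (k : ℂ) • cHess (fun z => Real.log (HH P i (e.symm z))) (e x) := by
  unfold Th
  rw [hx.left_inv, cHess_HH P hx (ixn_mem L x) hi]

/-- naturality of the Hessian -/
theorem cHess_change {u : X → ℝ} {e e' : Chart n X} {x : X} (h : At e x) (h' : At e' x)
    (hu : ContDiffAt ℝ 2 (fun z => u (e'.symm z)) (e' x)) :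
    cHess (fun y => u (e.symm y)) (e x) = (jacM e e' x).transpose *
      cHess (fun y => u (e'.symm y)) (e' x) * (jacM e e' x).map (starRingEnd ℂ) := by
  have h1 : (fun y => u (e.symm y)) =ᶠ[𝓝 (e x)] fun y => u (e'.symm (e' (e.symm y))) := by
    filter_upwards [h.nhds_at h'] with z hz
    rw [hz.2.2.left_inv]
  have h2 : e' (e.symm (e x)) = e' x := by rw [h.left_inv]
  rw [cHess_congr h1]
  have := cHess_comp (τ := fun z => e' (e.symm z)) (f := fun y => u (e'.symm y)) (z := e x)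
    (by rw [h2]; exact hu) (transition h h')
  rw [h2] at this
  exact this

theorem Th_c11 : C11 (Th P k) where
  cont e x hx j l := by
    obtain ⟨i, hi⟩ := L.cover x
    have h1 : (fun z => Th P k e z j l) =ᶠ[𝓝 (e x)] fun z =>
        (k : ℂ) * cHess (fun y => Real.log (HH P i (e.symm y))) z j l := by
      filter_upwards [U_evn hx hi] with z hz
      have := Th_eq P (k := k) hz.2.1 hz.2.2
      rw [e.right_inv hz.1] at this
      rw [this]
      rfl
    refine ContinuousAt.congr ?_ h1.symm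
    exact continuousAt_const.mul (INT.smooth_cHess (logHH_smooth P hx hi) j l).continuousAt
  change e e' x hx hx' := by
    obtain ⟨i, hi⟩ := L.cover x
    rw [Th_eq P hx hi, Th_eq P hx' hi, cHess_change (u := fun y => Real.log (HH P i y)) hx hx'
      ((logHH_smooth P hx' hi).of_le two_le_inf), Matrix.mul_smul, Matrix.smul_mul]

/-- the weight of a section -/
def GG (s : Sec L k) (x : X) : ℝ := ‖s.f (ixn L x) x‖ ^ 2 / HH P (ixn L x) x ^ k

omit [IsManifold 𝓘(ℂ, Cm n) ω X] in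
theorem GG_eq (s : Sec L k) {i : L.ι} {x : X} (hi : x ∈ L.U i) :
    GG P s x = ‖s.f i x‖ ^ 2 / HH P i x ^ k := by
  have hj := ixn_mem L x
  unfold GG
  rw [s.change _ i x hj hi, HH_change P hj hi, norm_mul, norm_pow, mul_pow, mul_pow]
  have h1 := norm_pos_iff.2 (L.ne_zero _ i x hj hi)
  have h2 := HH_pos P hi
  have h3 : (‖L.g (ixn L x) i x‖ ^ k) ^ 2 = (‖L.g (ixn L x) i x‖ ^ 2) ^ k := by ring
  rw [h3]
  have h4 : (‖L.g (ixn L x) i x‖ ^ 2) ^ k ≠ 0 := by positivity
  field_simp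

omit [IsManifold 𝓘(ℂ, Cm n) ω X] in
theorem GG_nonneg (s : Sec L k) (x : X) : 0 ≤ GG P s x := by
  unfold GG
  have := HH_pos P (ixn_mem L x)
  positivity

omit [IsManifold 𝓘(ℂ, Cm n) ω X] in
theorem GG_ne (s : Sec L k) {i : L.ι} {x : X} (hi : x ∈ L.U i) : GG P s x ≠ 0 ↔ s.f i x ≠ 0 := by
  rw [GG_eq P s hi]
  have h2 := HH_pos P hi
  constructor
  · intro h h0
    rw [h0] at h
    simp at h
  · intro h
    have := norm_pos_iff.2 h
    positivity

omit [IsManifold 𝓘(ℂ, Cm n) ω X] in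
theorem GG_ev (s : Sec L k) {i : L.ι} {e : Chart n X} {x : X} (hx : At e x) (hi : x ∈ L.U i) :
    (fun z => GG P s (e.symm z)) =ᶠ[𝓝 (e x)]
      fun z => ‖s.f i (e.symm z)‖ ^ 2 / HH P i (e.symm z) ^ k := by
  filter_upwards [U_evn hx hi] with z hz
  exact GG_eq P s hz.2.2

omit [IsManifold 𝓘(ℂ, Cm n) ω X] in
theorem GG_smooth (s : Sec L k) : SmoothFn (n := n) (GG P s) := by
  intro e x hx
  obtain ⟨i, hi⟩ := L.cover x
  refine ContDiffAt.congr_of_eventuallyEq ?_ (GG_ev P s hx hi)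
  have h1 : ContDiffAt ℝ ∞ (fun z => s.f i (e.symm z)) (e x) :=
    ((s.holo i e x hx hi).restrict_scalars ℝ).of_le (by exact le_top)
  refine (h1.norm_sq ℝ).div ((HH_smooth P hx hi).pow k) ?_
  rw [hx.left_inv]
  exact (pow_pos (HH_pos P hi) k).ne'

omit [IsManifold 𝓘(ℂ, Cm n) ω X] in
theorem GG_hess (s : Sec L k) {e : Chart n X} {x : X} (hx : At e x) (h0 : GG P s x ≠ 0) :
    cHess (fun y => Real.log (GG P s (e.symm y))) (e x) = -Th P k e (e x) := by
  obtain ⟨i, hi⟩ := L.cover x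
  have hs0 : s.f i x ≠ 0 := (GG_ne P s hi).1 h0
  have hs := s.holo i e x hx hi
  have hs1 : (fun z => s.f i (e.symm z)) (e x) ≠ 0 := by
    simp only
    rwa [hx.left_inv]
  have h1 : (fun y => Real.log (GG P s (e.symm y))) =ᶠ[𝓝 (e x)]
      fun z => Real.log (‖s.f i (e.symm z)‖ ^ 2) + (-(k : ℝ)) * Real.log (HH P i (e.symm z)) := by
    filter_upwards [GG_ev P s hx hi, hs.continuousAt.eventually_ne hs1, U_evn hx hi] with z h1 h2 h3
    have h4 := HH_pos P h3.2.2
    rw [h1, Real.log_div (by positivity) (by positivity),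
      Real.log_pow (HH P i (e.symm z)) k]
    ring
  have h2 : ContDiffAt ℝ 2 (fun z => Real.log (‖s.f i (e.symm z)‖ ^ 2)) (e x) := by
    have h3 : ContDiffAt ℝ 2 (fun z => s.f i (e.symm z)) (e x) :=
      (hs.restrict_scalars ℝ).of_le (by exact le_top)
    refine (h3.norm_sq ℝ).log ?_
    have := norm_pos_iff.2 hs1
    simp only at this
    positivity
  have h5 := (logHH_smooth P hx hi).of_le two_le_inf
  rw [C2.cHess_congr h1, C2.cHess_add h2 (contDiffAt_const.mul h5),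
    cHess_log_norm_sq hs hs1, zero_add, C2.cHess_const_mul _ h5, Th_eq P hx hi, ← neg_smul]
  push_cast
  rfl

end

end Vale.Agent.P284.H206.K
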