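import Vale.Agent.P284.H206.K.B6

/-!
# P284 (helper206), K10: `s^{1/k} φ` is closed on a compact Kähler manifold
-/

open scoped Manifold ContDiff Topology ComplexOrder ComplexConjugate Matrix
open Filter Set MeasureTheory

noncomputable section

namespace Vale.Agent.P284.H206.K

open Vale.Agent.P272.K Vale.Agent.P272.K.INT Vale.Agent.P284.H206.Bog Vale.Agent.P284.H248
  Vale.Agent.P284.H608.K Vale.Agent.P284.H366.K Vale.Agent.P284.H206.Sp

variable {n p : ℕ} {X : Type} [TopologicalSpace X] [ChartedSpace (Cm n) X]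
  {W : Chart n X → Cm n → Matrix (Fin n) (Fin n) ℂ} {L : LineBundle n X} {k : ℕ}

/-- the weight `|s|^{2/k}` -/
def wtn (s : Sec L k) (i : L.ι) (z : X) : ℝ := (‖s.f i z‖ ^ 2) ^ ((k : ℝ)⁻¹)

theorem wtn_nonneg (s : Sec L k) (i : L.ι) (z : X) : 0 ≤ wtn s i z :=
  Real.rpow_nonneg (by positivity) _

theorem wtn_glue (hk : k ≠ 0) (s : Sec L k) {i i' : L.ι} {z : X} (hi : z ∈ L.U i)
    (hi' : z ∈ L.U i') : wtn s i z = ‖L.g i i' z‖ ^ 2 * wtn s i' z := by
  unfold wtn
  rw [s.change i i' z hi hi', norm_mul, norm_pow, mul_pow, ← pow_mul, mul_comm k 2, pow_mul,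
    Real.mul_rpow (by positivity) (by positivity), Real.pow_rpow_inv_natCast (by positivity) hk]

theorem wtn_smooth (s : Sec L k) {c : Chart n X} {z : X} (hz : At c z)
    {i : L.ι} (hi : z ∈ L.U i) (h0 : s.f i z ≠ 0) :
    ContDiffAt ℝ ∞ (fun ζ => wtn s i (c.symm ζ)) (c z) := by
  unfold wtn
  have h1 : ContDiffAt ℝ ∞ (fun ζ => s.f i (c.symm ζ)) (c z) :=
    ((s.holo i c z hz hi).restrict_scalars ℝ).of_le (by exact le_top)
  refine ContDiffAt.rpow_const_of_ne (h1.norm_sq ℝ) ?_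
  rw [hz.left_inv]
  positivity

theorem wtn_cont (s : Sec L k) {c : Chart n X} {z : X} (hz : At c z)
    {i : L.ι} (hi : z ∈ L.U i) :
    ContinuousAt (fun ζ => wtn s i (c.symm ζ)) (c z) := by
  unfold wtn
  have h1 : ContinuousAt (fun ζ => s.f i (c.symm ζ)) (c z) := (s.holo i c z hz hi).continuousAt
  exact (h1.norm.pow 2).rpow_const (Or.inr (by positivity))

/-- the form `s^{1/k} φ ∧ conj (s^{1/k} φ) ∧ W^{n-p-1}` -/
def AAK (W : Chart n X → Cm n → Matrix (Fin n) (Fin n) ℂ) (s : Sec L k) (φ : Mor L p)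
    (e : Chart n X) (z : Cm n) : Matrix (Fin n) (Fin n) ℂ :=
  ((wtn s (ixn L (e.symm z)) (e.symm z) : ℝ) : ℂ) •
    BM (W e z) (toAf (φ.form (ixn L (e.symm z)) e z))

theorem AAK_eq (hk : k ≠ 0) (s : Sec L k) (φ : Mor L p) {e : Chart n X} {x : X} (hx : At e x)
    {i : L.ι} (hi : x ∈ L.U i) : AAK W s φ e (e x) =
      ((wtn s i x : ℝ) : ℂ) • BM (W e (e x)) (toAf (φ.form i e (e x))) := by
  unfold AAK
  rw [hx.left_inv]
  have hj := ixn_mem L x
  rw [wtn_glue hk s hi hj, φ.glue i _ e x hx hi hj, toAf_smul, BM_smul, smul_smul]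
  congr 1
  push_cast
  ring

theorem AAK_ev (hk : k ≠ 0) (s : Sec L k) (φ : Mor L p) {e : Chart n X} {x : X} (hx : At e x)
    {i : L.ι} (hi : x ∈ L.U i) : AAK W s φ e =ᶠ[𝓝 (e x)] fun z =>
      ((wtn s i (e.symm z) : ℝ) : ℂ) • BM (W e z) (toAf (φ.form i e z)) := by
  filter_upwards [U_evn hx hi] with z hz
  have := AAK_eq (W := W) hk s φ hz.2.1 hz.2.2
  rwa [e.right_inv hz.1] at this

theorem form_an (φ : Mor L p) {i : L.ι} {e : Chart n X} {x : X} (hx : At e x) (hi : x ∈ L.U i) :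
    AnF (φ.form i e) (e x) := fun v => (φ.holo i e x hx hi v).analyticAt

theorem AAK_psd (hw : IsKahler W) (hk : k ≠ 0) (s : Sec L k) (φ : Mor L p) {e : Chart n X} {x : X}
    (hx : At e x) : (AAK W s φ e (e x)).PosSemidef := by
  obtain ⟨i, hi⟩ := L.cover x
  rw [AAK_eq hk s φ hx hi]
  refine (BM_psd (hw.posDef e x hx) _).smul ?_
  exact_mod_cast wtn_nonneg s i x

variable [IsManifold 𝓘(ℂ, Cm n) ω X]

theorem AAK_change (hw : IsKahler W) (hk : k ≠ 0) (s : Sec L k) (φ : Mor L p)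
    (e e' : Chart n X) (x : X) (hx : At e x) (hx' : At e' x) :
    jacM e e' x * AAK W s φ e (e x) * (jacM e e' x)ᴴ =
      ((‖(jacM e e' x).det‖ ^ 2 : ℝ) : ℂ) • AAK W s φ e' (e' x) := by
  obtain ⟨i, hi⟩ := L.cover x
  rw [AAK_eq hk s φ hx hi, AAK_eq hk s φ hx' hi, Matrix.mul_smul, Matrix.smul_mul]
  set T := fderiv ℂ (fun z => e' (e.symm z)) (e x) with hT
  have hTd := transition_differentiableAt hx hx'
  have hJ : LinearMap.toMatrix' (T : Cm n →ₗ[ℂ] Cm n) = jacM e e' x := by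
    ext a b
    rw [LinearMap.toMatrix'_apply]
    show T (Pi.single b 1) a = _
    rw [hT, jmat_mulVec hTd, Finset.sum_eq_single b]
    · rw [Pi.single_eq_same, mul_one]
      rfl
    · intro c _ hc
      rw [Pi.single_eq_of_ne hc, mul_zero]
    · intro h; exact absurd (Finset.mem_univ b) h
  have hbij : Function.Bijective T := by
    have hu := jacM_isUnit hx hx'
    have hv : ∀ v : Cm n, T v = jacM e e' x *ᵥ v := by
      intro v
      funext a
      rw [hT, jmat_mulVec hTd]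
      rfl
    constructor
    · intro v v' h
      rw [hv, hv] at h
      have h2 := congrArg (fun y => (jacM e e' x)⁻¹ *ᵥ y) h
      simp only [Matrix.mulVec_mulVec, Matrix.nonsing_inv_mul _ hu, Matrix.one_mulVec] at h2
      exact h2
    · intro y
      refine ⟨(jacM e e' x)⁻¹ *ᵥ y, ?_⟩
      rw [hv, Matrix.mulVec_mulVec, Matrix.mul_nonsing_inv _ hu, Matrix.one_mulVec]
  have h1 := BM_pull (hw.posDef e' x hx') T hbij (toAf (φ.form i e' (e' x)))
  rw [hJ, ← hw.change e e' x hx hx'] at h1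
  have h2 : (toAf (φ.form i e' (e' x))).compContinuousLinearMap T = toAf (φ.form i e (e x)) := by
    rw [φ.change i e e' x hx hx' hi]
    ext v
    rfl
  rw [h2] at h1
  rw [h1, smul_comm]

theorem AAK_cont (hw : IsKahler W) (hp : p + 1 ≤ n) (hk : k ≠ 0) (s : Sec L k) (φ : Mor L p)
    {e : Chart n X} {x : X} (hx : At e x) (a b : Fin n) :
    ContinuousAt (fun z => AAK W s φ e z a b) (e x) := by
  obtain ⟨i, hi⟩ := L.cover x
  have h1 : (fun z => AAK W s φ e z a b) =ᶠ[𝓝 (e x)] fun z =>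
      ((wtn s i (e.symm z) : ℝ) : ℂ) * BM (W e z) (toAf (φ.form i e z)) a b := by
    filter_upwards [AAK_ev hk s φ hx hi] with z hz
    rw [hz]
    rfl
  refine ContinuousAt.congr ?_ h1.symm
  exact (Complex.continuous_ofReal.continuousAt.comp (wtn_cont s hx hi)).mul
    (BM_cd hw hp hx (form_an φ hx hi) a b).continuousAt

theorem AAK_smooth (hw : IsKahler W) (hp : p + 1 ≤ n) (hk : k ≠ 0) (s : Sec L k) (φ : Mor L p)
    {e : Chart n X} {x : X} (hx : At e x) {i : L.ι} (hi : x ∈ L.U i) (h0 : s.f i x ≠ 0)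
    (a b : Fin n) : ContDiffAt ℝ ∞ (fun z => AAK W s φ e z a b) (e x) := by
  have h1 : (fun z => AAK W s φ e z a b) =ᶠ[𝓝 (e x)] fun z =>
      ((wtn s i (e.symm z) : ℝ) : ℂ) * BM (W e z) (toAf (φ.form i e z)) a b := by
    filter_upwards [AAK_ev hk s φ hx hi] with z hz
    rw [hz]
    rfl
  refine ContDiffAt.congr_of_eventuallyEq ?_ h1
  exact (Complex.ofRealCLM.contDiff.contDiffAt.comp (e x) (wtn_smooth s hx hi h0)).mul
    (BM_cd hw hp hx (form_an φ hx hi) a b)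

/-- the form `g φ` -/
def gform (g : Cm n → ℂ) (Φ : Cm n → (Cm n) [⋀^Fin p]→ₗ[ℂ] ℂ) (y : Cm n) :
    (Cm n) [⋀^Fin p]→ₗ[ℂ] ℂ := g y • Φ y

omit [TopologicalSpace X] [ChartedSpace (Cm n) X] [IsManifold 𝓘(ℂ, Cm n) ω X] in
theorem gform_an {g : Cm n → ℂ} {Φ : Cm n → (Cm n) [⋀^Fin p]→ₗ[ℂ] ℂ} {z : Cm n}
    (hg : AnalyticAt ℂ g z) (hΦ : AnF Φ z) : AnF (gform g Φ) z := fun v => hg.mul (hΦ v)

theorem DD_AAK (hw : IsKahler W) (hp : p + 1 ≤ n) (hk : k ≠ 0) (s : Sec L k) (φ : Mor L p)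
    {e : Chart n X} {x : X} (hx : At e x) {i : L.ι} (hi : x ∈ L.U i) {g : Cm n → ℂ}
    (hg : AnalyticAt ℂ g (e x)) (hgk : ∀ᶠ ζ in 𝓝 (e x), g ζ ^ k = s.f i (e.symm ζ)) :
    DD (AAK W s φ e) (e x) = (W e (e x)).det * hn (W e (e x)) (dA (gform g (φ.form i e)) (e x))
      (dA (gform g (φ.form i e)) (e x)) := by
  rw [← DD_BM hw hp hx (gform_an hg (form_an φ hx hi))]
  have h1 : AAK W s φ e =ᶠ[𝓝 (e x)] fun y => BM (W e y) (toAf (gform g (φ.form i e) y)) := by
    filter_upwards [AAK_ev hk s φ hx hi, hgk] with z h1 h2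
    rw [h1, gform, toAf_smul, BM_smul]
    congr 2
    rw [wtn, ← h2, norm_pow, ← pow_mul, mul_comm k 2, pow_mul,
      Real.pow_rpow_inv_natCast (by positivity) hk]
  unfold DD
  refine Finset.sum_congr rfl fun j _ => Finset.sum_congr rfl fun l _ => ?_
  have h2 : (fun y => AAK W s φ e y j l) =ᶠ[𝓝 (e x)]
      fun y => BM (W e y) (toAf (gform g (φ.form i e) y)) j l := by
    filter_upwards [h1] with y hy
    rw [hy]
  exact INT.dz_congr (INT.dzb_congr' h2)

/-- **closedness**: `∂(s^{1/k} φ) = 0` on a compact Kähler manifold, in the charts of the partition of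
unity -/
theorem closed_part [T2Space X] [CompactSpace X] (hw : IsKahler W) (hp : p + 1 ≤ n) (hk : k ≠ 0)
    (s : Sec L k) (φ : Mor L p) {x : X} {i₀ : Fin (part n X).N} (hi₀ : 0 < (part n X).ρ i₀ x)
    {i : L.ι} (hi : x ∈ L.U i) (h0 : s.f i x ≠ 0) {g : Cm n → ℂ}
    (hg : AnalyticAt ℂ g ((part n X).e i₀ x))
    (hgk : ∀ᶠ ζ in 𝓝 ((part n X).e i₀ x), g ζ ^ k = s.f i (((part n X).e i₀).symm ζ)) :
    dA (gform g (φ.form i ((part n X).e i₀))) ((part n X).e i₀ x) = 0 := by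
  set e := (part n X).e i₀ with he
  have hx : At e x := ⟨(part n X).mem i₀, (part n X).supp i₀ (subset_tsupport _ (by
      simp only [Function.mem_support]; exact hi₀.ne'))⟩
  obtain ⟨P⟩ := exists_lpart L
  have hG0 : GG P s x ≠ 0 := (GG_ne P s hi).2 h0
  obtain ⟨M, hM, hMb⟩ := bdd_pr hw (CF.ofAg hw) (Th_c11 P (k := k))
  have hG : GDat W (GG P s) (Th P k) M :=
    { sm := GG_smooth P s
      nn := GG_nonneg P s
      hess := fun e x hx h => GG_hess P s hx h
      M0 := hM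
      bd := fun e x hx _ => hMb e x hx }
  have hCF : CF (AAK W s φ) :=
    { cont := fun e x hx a b => AAK_cont hw hp hk s φ hx a b
      change := AAK_change hw hk s φ }
  obtain ⟨C₁, hC₁, hb₁⟩ := bdd_pr hw hCF (C11.ofK hw)
  obtain ⟨C₂, hC₂, hb₂⟩ := bdd_pr hw hCF (Th_c11 P (k := k))
  have hTF : TF {x | GG P s x = 0} (AAK W s φ) :=
    { smooth := fun e x hx h a b => by
        obtain ⟨i, hi⟩ := L.cover x
        exact AAK_smooth hw hp hk s φ hx hi ((GG_ne P s hi).1 h) a b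
      change := fun e e' x hx hx' _ => AAK_change hw hk s φ e e' x hx hx' }
  have hDDeq : ∀ (e : Chart n X) (x : X), At e x → GG P s x ≠ 0 → ∃ D : Af n (p + 1),
      DD (AAK W s φ e) (e x) = (W e (e x)).det * hn (W e (e x)) D D := by
    intro e x hx h
    obtain ⟨i, hi⟩ := L.cover x
    have hs : s.f i (e.symm (e x)) ≠ 0 := by rw [hx.left_inv]; exact (GG_ne P s hi).1 h
    obtain ⟨g, hg, hgk⟩ := exists_root (s.holo i e x hx hi) hs hk
    exact ⟨_, DD_AAK hw hp hk s φ hx hi hg.analyticAt hgk⟩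
  have hnn : ∀ (e : Chart n X) (x : X) (_ : At e x) (D : Af n (p + 1)),
      0 ≤ (W e (e x)).det * hn (W e (e x)) D D := by
    intro e x hx D
    refine mul_nonneg (hw.posDef e x hx).det_pos.le ?_
    by_cases h : D = 0
    · rw [h, hn_zero_left]
    · exact (Vale.Agent.P284.H752.k1_pos (hw.posDef e x hx) _ h).le
  have hDD : ∀ (e : Chart n X) (x : X), At e x → GG P s x ≠ 0 →
      0 ≤ (DD (AAK W s φ e) (e x)).re := by
    intro e x hx h
    obtain ⟨D, hD⟩ := hDDeq e x hx h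
    rw [hD]
    exact (Complex.nonneg_iff.1 (hnn e x hx D)).1
  set C := max C₁ C₂ with hC
  have hCn : 0 ≤ C := hC₁.trans (le_max_left _ _)
  have key := DD_zero hw hG hCn hTF
    (fun e x hx _ ξ => by
      obtain ⟨h1, h2⟩ := psd_bd (AAK_psd hw hk s φ hx) (hw.posDef e x hx) ξ
      have h3 := hb₁ e x hx
      have h4 : 0 ≤ (pr (AgK W e (e x)) (Matrix.vecMulVec ξ (star ξ))).re :=
        rank_nonneg (hw.posDef e x hx) ξ
      have h5 := dgK_pos hw hx
      rw [abs_of_nonneg h1]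
      have h6 : (pr (AAK W s φ e (e x)) (Matrix.vecMulVec ξ (star ξ))).re * dgK W e (e x) ≤
          (C₁ * (pr (AgK W e (e x)) (Matrix.vecMulVec ξ (star ξ))).re) * dgK W e (e x) := by
        calc _ ≤ (pr (AAK W s φ e (e x)) (W e (e x))).re *
              (pr (AgK W e (e x)) (Matrix.vecMulVec ξ (star ξ))).re := h2
          _ ≤ (C₁ * dgK W e (e x)) * (pr (AgK W e (e x)) (Matrix.vecMulVec ξ (star ξ))).re :=
              mul_le_mul_of_nonneg_right ((le_abs_self _).trans h3) h4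
          _ = _ := by ring
      have h7 := le_of_mul_le_mul_right h6 h5
      exact h7.trans (mul_le_mul_of_nonneg_right (le_max_left _ _) h4))
    (fun e x hx _ => (hb₂ e x hx).trans
      (mul_le_mul_of_nonneg_right (le_max_right _ _) (dgK_pos hw hx).le))
    hDD hG0 hi₀
  rw [← he, DD_AAK hw hp hk s φ hx hi hg hgk] at key
  by_contra hne
  have h1 := Vale.Agent.P284.H752.k1_pos (hw.posDef e x hx) _ hne
  have h2 := mul_pos (hw.posDef e x hx).det_pos h1
  exact (Complex.pos_iff.1 h2).1.ne' key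

end Vale.Agent.P284.H206.K
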