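import Vale.Agent.P284.H206.K.B7

/-!
# P284 (helper206), K10: `d(t/s) ∧ φ = 0` on a compact Kähler manifold
-/

open scoped Manifold ContDiff Topology ComplexOrder ComplexConjugate Matrix
open Filter Set MeasureTheory

noncomputable section

namespace Vale.Agent.P284.H206.K

open Vale.Agent.P272.K Vale.Agent.P272.K.INT Vale.Agent.P284.H206.Bog Vale.Agent.P284.H248
  Vale.Agent.P284.H608.K Vale.Agent.P284.H366.K Vale.Agent.P284.H206.Sp

variable {n p : ℕ}

theorem wdz_zero (c : Fin n) : wdz c (0 : Af n p) = 0 := by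
  ext v
  rw [wdz_apply]
  simp

theorem toAf_add (A B : (Cm n) [⋀^Fin p]→ₗ[ℂ] ℂ) : toAf (A + B) = toAf A + toAf B := by
  ext v; rfl

/-- `dA` in coordinates -/
theorem dA_eq (η : Cm n → (Cm n) [⋀^Fin p]→ₗ[ℂ] ℂ) (z : Cm n) :
    dA η z = ∑ a, wdz a (toAf (dD η a z)) := by
  ext v
  rw [dA, ContinuousAlternatingMap.alternatizeUncurryFin_apply, ContinuousAlternatingMap.sum_apply]
  simp only [wdz_apply, sum_apply, ContinuousAlternatingMap.sum_apply]
  rw [Finset.sum_comm]
  refine Finset.sum_congr rfl fun j _ => ?_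
  rw [Finset.smul_sum]
  refine Finset.sum_congr rfl fun a _ => ?_
  simp only [ContinuousLinearMap.smulRight_apply, ContinuousAlternatingMap.smul_apply, smul_eq_mul,
    zsmul_eq_mul, Int.cast_pow, Int.cast_neg, Int.cast_one, ContinuousLinearMap.proj_apply]
  rfl

/-- the product rule -/
theorem dA_mul {ρ : Cm n → ℂ} {η : Cm n → (Cm n) [⋀^Fin p]→ₗ[ℂ] ℂ} {z : Cm n}
    (hρ : AnalyticAt ℂ ρ z) (hη : AnF η z) :
    dA (gform ρ η) z = (∑ a, fderiv ℂ ρ z (Pi.single a 1) • wdz a (toAf (η z))) + ρ z • dA η z := by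
  rw [dA_eq, dA_eq, Finset.smul_sum, ← Finset.sum_add_distrib]
  refine Finset.sum_congr rfl fun a _ => ?_
  have h1 : dD (gform ρ η) a z = fderiv ℂ ρ z (Pi.single a 1) • η z + ρ z • dD η a z := by
    ext v
    rw [dD_apply (gform_an hρ hη), AlternatingMap.add_apply, AlternatingMap.smul_apply,
      AlternatingMap.smul_apply, dD_apply hη]
    have h2 : (fun y => gform ρ η y v) = fun y => ρ y * η y v := rfl
    rw [h2, fderiv_fun_mul hρ.differentiableAt (hη v).differentiableAt]
    simp only [add_apply, smul_apply, smul_eq_mul]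
    ring
  rw [h1, toAf_add, toAf_smul, toAf_smul]
  have h3 : ∀ A B : Af n p, wdz a (A + B) = wdz a A + wdz a B := by
    intro A B
    ext v
    rw [ContinuousAlternatingMap.add_apply, wdz_apply, wdz_apply, wdz_apply, ← Finset.sum_add_distrib]
    refine Finset.sum_congr rfl fun j _ => ?_
    rw [ContinuousAlternatingMap.add_apply]
    ring
  rw [h3, wdz_smul, wdz_smul]

variable {X : Type} [TopologicalSpace X] [ChartedSpace (Cm n) X] [IsManifold 𝓘(ℂ, Cm n) ω X]
  {W : Chart n X → Cm n → Matrix (Fin n) (Fin n) ℂ} {L : LineBundle n X} {k : ℕ}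

/-- `d(t/s) ∧ φ` under a change of charts -/
theorem Om_change (s t : Sec L k) (φ : Mor L p) {i : L.ι} {e e' : Chart n X} {x : X}
    (hx : At e x) (hx' : At e' x) (hi : x ∈ L.U i) (hs : s.f i x ≠ 0) :
    Om s t φ i e (e x) = (Om s t φ i e' (e' x)).compLinearMap
      (fderiv ℂ (fun z => e' (e.symm z)) (e x)).toLinearMap := by
  have hsh := (s.holo i e' x hx' hi).analyticAt
  have hth := (t.holo i e' x hx' hi).analyticAt
  have hs1 : s.f i (e'.symm (e' x)) ≠ 0 := by rwa [hx'.left_inv]
  have hq := hth.div hsh hs1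
  have hcz : e' (e.symm (e x)) = e' x := by rw [hx.left_inv]
  rw [Om, Om, wd_comp, ← φ.change i e e' x hx hx' hi]
  congr 1
  refine LinearMap.ext fun v => ?_
  show dq s t i e (e x) v = dq s t i e' (e' x) (fderiv ℂ (fun z => e' (e.symm z)) (e x) v)
  have hev : (fun ζ => t.f i (e.symm ζ) / s.f i (e.symm ζ)) =ᶠ[𝓝 (e x)]
      fun ζ => (fun y => t.f i (e'.symm y) / s.f i (e'.symm y)) (e' (e.symm ζ)) := by
    filter_upwards [hx.nhds_at hx'] with ζ hζ
    simp only [hζ.2.2.left_inv]
  have hd : DifferentiableAt ℂ (fun y => t.f i (e'.symm y) / s.f i (e'.symm y))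
      (e' (e.symm (e x))) := by rw [hcz]; exact hq.differentiableAt
  have h1 := fderiv_comp (𝕜 := ℂ) (e x) (g := fun y => t.f i (e'.symm y) / s.f i (e'.symm y))
    (f := fun ζ => e' (e.symm ζ)) hd (transition_differentiableAt hx hx')
  rw [dq, hev.fderiv_eq, show (fun ζ => (fun y => t.f i (e'.symm y) / s.f i (e'.symm y))
    (e' (e.symm ζ))) = (fun y => t.f i (e'.symm y) / s.f i (e'.symm y)) ∘
      fun ζ => e' (e.symm ζ) from rfl, h1, ContinuousLinearMap.comp_apply, hcz]
  rfl

/-- `d(t/s) ∧ φ = 0`, the case of nonvanishing `t` -/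
theorem Om_zero' [T2Space X] [CompactSpace X] (hw : IsKahler W)
    (φ : Mor L p) (hk : k ≠ 0) (s t : Sec L k) {i : L.ι} {e : Chart n X} {x : X}
    (he : At e x) (hi : x ∈ L.U i) (hs : s.f i x ≠ 0) (ht : t.f i x ≠ 0) :
    Om s t φ i e (e x) = 0 := by
  by_contra hne0
  -- the dimension
  have hp : p + 1 ≤ n := by
    obtain ⟨ρ, hρ⟩ := exists_std hne0
    have hinj : Function.Injective ρ := by
      intro a b hab
      by_contra hne'
      apply hρ
      exact (Om s t φ i e (e x)).map_eq_zero_of_eq _ (by rw [hab]) hne'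
    have := Fintype.card_le_of_injective ρ hinj
    simpa using this
  apply hne0
  obtain ⟨i₀, hi₀⟩ : ∃ i₀, 0 < (part n X).ρ i₀ x := by
    by_contra hcon
    push Not at hcon
    have h1 := (part n X).sum x
    have h2 : ∑ i, (part n X).ρ i x ≤ 0 := Finset.sum_nonpos fun i _ => hcon i
    linarith
  set c := (part n X).e i₀ with hc
  have hx : At c x := ⟨(part n X).mem i₀,
    (part n X).supp i₀ (subset_tsupport _ (by
      simp only [Function.mem_support]; exact hi₀.ne'))⟩
  rw [Om_change s t φ he hx hi hs]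
  have key : Om s t φ i c (c x) = 0 := by
    have hsh := s.holo i c x hx hi
    have hth := t.holo i c x hx hi
    have hs1 : s.f i (c.symm (c x)) ≠ 0 := by rwa [hx.left_inv]
    have ht1 : t.f i (c.symm (c x)) ≠ 0 := by rwa [hx.left_inv]
    obtain ⟨g, hg, hgk⟩ := exists_root hsh hs1 hk
    have hqh : ContDiffAt ℂ ω (fun ζ => t.f i (c.symm ζ) / s.f i (c.symm ζ)) (c x) := hth.div hsh hs1
    have hq1 : t.f i (c.symm (c x)) / s.f i (c.symm (c x)) ≠ 0 := div_ne_zero ht1 hs1
    obtain ⟨ρ, hρ, hρk⟩ := exists_root hqh hq1 hk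
    have hΦ := form_an φ hx hi
    have h1 := closed_part hw hp hk s φ hi₀ hi hs hg.analyticAt hgk
    have h2 := closed_part hw hp hk t φ hi₀ hi ht (g := fun ζ => ρ ζ * g ζ)
      (hρ.analyticAt.mul hg.analyticAt) (by
        filter_upwards [hgk, hρk, hsh.continuousAt.eventually_ne hs1] with ζ a b c
        rw [mul_pow, a, b, div_mul_cancel₀ _ c])
    have hg0 : g (c x) ≠ 0 := by
      intro h0
      have := hgk.self_of_nhds
      rw [h0, zero_pow hk] at this
      exact hs1 this.symm
    have e1 : gform (fun ζ => ρ ζ * g ζ) (φ.form i c) = gform ρ (gform g (φ.form i c)) := by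
      funext y
      ext v
      show ρ y * g y * _ = ρ y * (g y * _)
      ring
    rw [← hc, e1, dA_mul hρ.analyticAt (gform_an hg.analyticAt hΦ), h1, Vale.Agent.P284.H366.K.smz,
      add_zero] at h2
    have h3 : ∑ a, fderiv ℂ ρ (c x) (Pi.single a 1) • wdz a (toAf (φ.form i c (c x))) = 0 := by
      have h4 : ∀ a, wdz a (toAf (gform g (φ.form i c) (c x))) =
          g (c x) • wdz a (toAf (φ.form i c (c x))) := by
        intro a
        rw [gform, toAf_smul, wdz_smul]
      simp only [h4] at h2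
      have h5 : g (c x) • ∑ a, fderiv ℂ ρ (c x) (Pi.single a 1) •
          wdz a (toAf (φ.form i c (c x))) = 0 := by
        rw [← h2, Finset.smul_sum]
        refine Finset.sum_congr rfl fun a _ => ?_
        ext v
        simp only [ContinuousAlternatingMap.smul_apply, smul_eq_mul]
        ring
      ext v
      have h6 : g (c x) * (∑ a, fderiv ℂ ρ (c x) (Pi.single a 1) •
          wdz a (toAf (φ.form i c (c x)))) v = 0 := congrArg (fun (F : Af n (p + 1)) => F v) h5
      exact (mul_eq_zero.1 h6).resolve_left hg0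
    -- the differential of the ratio
    have h6 : ∀ v, dq s t i c (c x) v = (k : ℂ) * ρ (c x) ^ (k - 1) * fderiv ℂ ρ (c x) v := by
      intro v
      have hρd : DifferentiableAt ℂ ρ (c x) := hρ.differentiableAt (by simp)
      have h7 : HasFDerivAt (fun ζ => ρ ζ ^ k) ((k • ρ (c x) ^ (k - 1)) • fderiv ℂ ρ (c x)) (c x) :=
        hρd.hasFDerivAt.pow k
      have h8 : dq s t i c (c x) = fderiv ℂ (fun ζ => ρ ζ ^ k) (c x) := by
        have h9 : (fun ζ => t.f i (c.symm ζ) / s.f i (c.symm ζ)) =ᶠ[𝓝 (c x)] fun ζ => ρ ζ ^ k :=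
          hρk.mono fun ζ h => h.symm
        rw [dq, h9.fderiv_eq]
      rw [h8, h7.fderiv]
      simp
    ext v
    rw [Om, wd_apply, AlternatingMap.zero_apply]
    have h9 : (∑ a, fderiv ℂ ρ (c x) (Pi.single a 1) •
          wdz a (toAf (φ.form i c (c x)))) v = (0 : ℂ) := congrArg (fun (F : Af n (p + 1)) => F v) h3
    simp only [ContinuousAlternatingMap.sum_apply, ContinuousAlternatingMap.smul_apply, wdz_apply,
      smul_eq_mul, toAf_apply] at h9
    have h10 : ∀ j : Fin (p + 1), (dq s t i c (c x)).toLinearMap (v j) =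
        (k : ℂ) * ρ (c x) ^ (k - 1) * ∑ a, v j a * fderiv ℂ ρ (c x) (Pi.single a 1) := by
      intro j
      show dq s t i c (c x) (v j) = _
      rw [h6]
      congr 1
      have h11 : v j = ∑ a, v j a • (Pi.single a 1 : Cm n) := by
        funext l
        simp [Finset.sum_apply, Pi.single_apply]
      conv_lhs => rw [h11]
      rw [map_sum]
      exact Finset.sum_congr rfl fun a _ => by rw [map_smul, smul_eq_mul]
    simp only [h10]
    have h12 : ∑ j : Fin (p + 1), (-1 : ℂ) ^ (j : ℕ) * ((k : ℂ) * ρ (c x) ^ (k - 1) *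
        (∑ a, v j a * fderiv ℂ ρ (c x) (Pi.single a 1)) *
          φ.form i c (c x) (fun a => v (j.succAbove a))) = (k : ℂ) * ρ (c x) ^ (k - 1) *
        ∑ a, fderiv ℂ ρ (c x) (Pi.single a 1) * ∑ j : Fin (p + 1), (-1 : ℂ) ^ (j : ℕ) *
          (v j a * φ.form i c (c x) (fun a => v (j.succAbove a))) := by
      simp only [Finset.mul_sum, Finset.sum_mul]
      rw [Finset.sum_comm]
      refine Finset.sum_congr rfl fun a _ => Finset.sum_congr rfl fun j _ => ?_
      ring
    rw [h12, h9, mul_zero]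
  rw [key]
  ext v
  simp

/-- **`d(t/s) ∧ φ = 0`** on a compact Kähler manifold -/
theorem Om_zero [T2Space X] [CompactSpace X] (hw : IsKahler W)
    (φ : Mor L p) (hk : k ≠ 0) (s t : Sec L k) {i : L.ι} {e : Chart n X} {x : X}
    (he : At e x) (hi : x ∈ L.U i) (hs : s.f i x ≠ 0) : Om s t φ i e (e x) = 0 := by
  by_cases ht : t.f i x = 0
  · have h1 : (sadd s t).f i x ≠ 0 := by
      show s.f i x + t.f i x ≠ 0
      rw [ht, add_zero]; exact hs
    have h2 := Om_zero' hw φ hk s (sadd s t) he hi hs h1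
    have hsh := (s.holo i e x he hi).analyticAt
    have hs1 : s.f i (e.symm (e x)) ≠ 0 := by rwa [he.left_inv]
    have hev : (fun z => (sadd s t).f i (e.symm z) / s.f i (e.symm z)) =ᶠ[𝓝 (e x)]
        fun z => 1 + t.f i (e.symm z) / s.f i (e.symm z) := by
      filter_upwards [hsh.continuousAt.eventually_ne hs1] with z hz
      show (s.f i (e.symm z) + t.f i (e.symm z)) / s.f i (e.symm z) = _
      rw [add_div, div_self hz]
    have h3 : dq s (sadd s t) i e (e x) = dq s t i e (e x) := by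
      rw [dq, dq, hev.fderiv_eq, fderiv_const_add]
    rw [Om, h3] at h2
    exact h2
  · exact Om_zero' hw φ hk s t he hi hs ht

end Vale.Agent.P284.H206.K
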