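import Vale.Agent.P284.H206.K.B8
import Vale.Agent.P284.H608.K.App

/-!
# P284 (helper206), K10: Bogomolov's theorem on compact Kähler manifolds
-/

open scoped Manifold ContDiff Topology ComplexOrder ComplexConjugate Matrix
open Filter Set MeasureTheory

noncomputable section

namespace Vale.Agent.P284.H206.K

open Vale.Agent.P272.K Vale.Agent.P284.H206.Bog Vale.Agent.P284.H248 Vale.Agent.P284.H206.Sp

/-- a form of degree `p` killed by `p + 1` independent functionals vanishes -/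
theorem form_zero {n p : ℕ} {Φ : (Cm n) [⋀^Fin p]→ₗ[ℂ] ℂ} {θ : Fin (p + 1) → Cm n →ₗ[ℂ] ℂ}
    {E : Fin (p + 1) → Cm n} (hE : ∀ a b, θ a (E b) = if a = b then 1 else 0)
    (h : ∀ a, wd (θ a) Φ = 0) : Φ = 0 := by
  cases p with
  | zero =>
    ext v
    have h1 := congrArg (fun (F : (Cm n) [⋀^Fin (0 + 1)]→ₗ[ℂ] ℂ) => F fun _ => E 0) (h 0)
    simp only [wd_apply, AlternatingMap.zero_apply] at h1
    rw [Fin.sum_univ_succ] at h1
    simp only [Finset.univ_eq_empty, Finset.sum_empty, add_zero, Fin.val_zero, pow_zero, one_mul] at h1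
    rw [hE, if_pos rfl, one_mul] at h1
    rw [AlternatingMap.zero_apply, ← h1]
    congr 1
    exact Subsingleton.elim _ _
  | succ r =>
    set θ' : Fin (r + 1) → Cm n →ₗ[ℂ] ℂ := fun a => θ a.castSucc with hθ'
    set E' : Fin (r + 1) → Cm n := fun a => E a.castSucc with hE'
    have hE2 : ∀ a b, θ' a (E' b) = if a = b then 1 else 0 := by
      intro a b
      rw [hθ', hE']
      simp only [hE, Fin.castSucc_inj]
    have h0 : Φ E' = 0 := by
      have h1 := rel (h (Fin.last (r + 1))) (E (Fin.last (r + 1))) E'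
      rw [hE, if_pos rfl, one_mul] at h1
      rw [h1]
      refine Finset.sum_eq_zero fun l _ => ?_
      have h2 : θ (Fin.last (r + 1)) (E' l) = 0 := by
        rw [hE']
        simp only [hE]
        rw [if_neg]
        exact (Fin.castSucc_lt_last l).ne'
      rw [h2, zero_mul]
    ext v
    rw [divide (fun a => h a.castSucc) hE2 v, h0, zero_mul, AlternatingMap.zero_apply]

variable {n p : ℕ} {X : Type} [TopologicalSpace X] [ChartedSpace (Cm n) X]
  [IsManifold 𝓘(ℂ, Cm n) ω X] {W : Chart n X → Cm n → Matrix (Fin n) (Fin n) ℂ}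
  {L : LineBundle n X}

/-- **Bogomolov**, local form: if `κ(L) ≥ p + 1` then a morphism `L → Ω^p` vanishes on an open set -/
theorem bog_van [T2Space X] [CompactSpace X] (hw : IsKahler W) (φ : Mor L p)
    (hκ : IitakaGE L (p + 1)) : ∃ x₀ : X, ∀ᶠ x in 𝓝 x₀, Van φ x := by
  obtain ⟨k, hk1, s, i, e, x₀, he, hi, hs, hli⟩ := hκ
  refine ⟨x₀, ?_⟩
  have hk : k ≠ 0 := by omega
  have hsh : ∀ a, AnalyticAt ℂ (fun z => (s a).f i (e.symm z)) (e x₀) := fun a =>
    ((s a).holo i e x₀ he hi).analyticAt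
  have hs1 : (s 0).f i (e.symm (e x₀)) ≠ 0 := by rwa [he.left_inv]
  have hra : ∀ a : Fin (p + 1), AnalyticAt ℂ (fun z => rb s i e z a) (e x₀) :=
    fun a => (hsh _).div (hsh 0) hs1
  have hcont : ContinuousAt (fun z => fun a : Fin (p + 1) => dq (s 0) (s a.succ) i e z) (e x₀) :=
    continuousAt_pi.2 fun a => (hra a).fderiv.continuousAt
  have hev1 : ∀ᶠ z in 𝓝 (e x₀), LinearIndependent ℂ fun a : Fin (p + 1) =>
      dq (s 0) (s a.succ) i e z :=
    hcont.eventually (isOpen_setOfPred_linearIndependent.mem_nhds hli)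
  have hev2 : ∀ᶠ z in 𝓝 (e x₀), (s 0).f i (e.symm z) ≠ 0 := (hsh 0).continuousAt.eventually_ne hs1
  filter_upwards [(e.continuousAt he.2).eventually hev1, (e.continuousAt he.2).eventually hev2,
      e.open_source.mem_nhds he.2, (L.isOpen i).mem_nhds hi] with x a1 a2 a3 a4
  have hx : At e x := ⟨he.1, a3⟩
  rw [e.left_inv a3] at a2
  obtain ⟨E, hE⟩ := exists_dual a1
  refine van_of hx a4 (form_zero (θ := fun a => (dq (s 0) (s a.succ) i e (e x)).toLinearMap) hE
    fun a => ?_)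
  exact K.Om_zero hw φ hk (s 0) (s a.succ) hx a4 a2

/-- **Bogomolov's theorem** on a connected compact Kähler manifold: a line bundle with a nonzero
morphism to `Ω^p` has `κ(L) ≤ p`. -/
theorem bogomolov [T2Space X] [CompactSpace X] [ConnectedSpace X] (hw : IsKahler W) (φ : Mor L p)
    (hφ : φ.Nonzero) : ¬ IitakaGE L (p + 1) := by
  intro hκ
  obtain ⟨x₀, hx₀⟩ := bog_van hw φ hκ
  obtain ⟨x, h1, h2⟩ := ((dense_ne hφ x₀).and_eventually hx₀).exists
  exact h1 h2

/-- **K10** -/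
theorem bogKStmt : Vale.Agent.P284.H608.K.BogKStmt := by
  intro n R X _ _ _ _ _ w hw L φ hd hκ
  obtain ⟨x₀, hx₀⟩ := bog_van hw φ hκ
  obtain ⟨O, hO, hOo, hxO⟩ := _root_.eventually_nhds_iff.1 hx₀
  obtain ⟨x, hx, hxO'⟩ := hd.inter_open_nonempty O hOo ⟨x₀, hxO⟩
  have hv := hO x hx
  obtain ⟨i, e, he, hi, U, b, hU, hU0, hb, hbs, hnf⟩ := hxO'
  have h0 := hv i e he hi
  choose ξ hξ using fun j : Fin R => hbs (Pi.single j 1)
  have h1 := hnf.self_of_nhds ξ
  rw [h0, AlternatingMap.zero_apply] at h1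
  have h2 : (Matrix.of fun i j => fderiv ℂ b (e x) (ξ j) i) = (1 : Matrix (Fin R) (Fin R) ℂ) := by
    ext a c
    rw [Matrix.of_apply, hξ, Matrix.one_apply, Pi.single_apply]
  rw [h2, Matrix.det_one, mul_one] at h1
  exact hU0 h1.symm

end Vale.Agent.P284.H206.K
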